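import Vale.Agent.P200.Step

/-!
P200: the lex-plus-powers ideal exists for three forms in three variables.
-/

namespace Vale.P200

open Module MvPolynomial

universe u

section Counting

/-- The exponent triple of `m`. -/
def trip (m : Fin 3 →₀ ℕ) : ℕ × ℕ × ℕ := (m 0, m 1, m 2)

lemma trip_inj : Function.Injective trip := by
  intro m n h
  simp only [trip, Prod.mk.injEq] at h
  ext i; fin_cases i <;> simp [h.1, h.2.1, h.2.2]

lemma degree_three (m : Fin 3 →₀ ℕ) : m.degree = m 0 + m 1 + m 2 := by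
  rw [Finsupp.degree_eq_sum, Fin.sum_univ_three]

/-- `m` lies outside the powers `(X₀^a, X₁^b, X₂^c)`. -/
def Out (a b c : ℕ) (m : Fin 3 →₀ ℕ) : Prop := m 0 < a ∧ m 1 < b ∧ m 2 < c

lemma trip_mem_mons {a b c d : ℕ} {m : Fin 3 →₀ ℕ} :
    trip m ∈ mons a b c d ↔ Out a b c m ∧ m.degree = d := by
  simp [mons, trip, Out, degree_three, and_assoc]

lemma ncard_out (a b c d : ℕ) (Q : ℕ × ℕ × ℕ → Prop) [DecidablePred Q] :
    {m : Fin 3 →₀ ℕ | m.degree = d ∧ Out a b c m ∧ Q (trip m)}.ncard
      = ((mons a b c d).filter Q).card := by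
  rw [← Set.ncard_image_of_injective _ trip_inj, ← Set.ncard_coe_finset]
  congr 1
  ext t
  simp only [Set.mem_image, Set.mem_ofPred_eq, Finset.coe_filter]
  constructor
  · rintro ⟨m, ⟨hd, ho, hQ⟩, rfl⟩
    exact ⟨trip_mem_mons.2 ⟨ho, hd⟩, hQ⟩
  · rintro ⟨ht, hQ⟩
    obtain ⟨i, j, l⟩ := t
    refine ⟨Finsupp.equivFunOnFinite.symm ![i, j, l], ?_, by simp [trip]⟩
    have hm : trip (Finsupp.equivFunOnFinite.symm ![i, j, l]) = (i, j, l) := by simp [trip]
    obtain ⟨ho, hd⟩ := trip_mem_mons.1 (hm ▸ ht)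
    exact ⟨hd, ho, hm ▸ hQ⟩

lemma ncard_out' (a b c d : ℕ) :
    {m : Fin 3 →₀ ℕ | m.degree = d ∧ Out a b c m}.ncard = (mons a b c d).card := by
  simpa using ncard_out a b c d (fun _ => True)

lemma ncard_degree (d : ℕ) : {m : Fin 3 →₀ ℕ | m.degree = d}.ncard = (d + 2).choose 2 := by
  have h : {m : Fin 3 →₀ ℕ | m.degree = d}
      = {m | m.degree = d ∧ Out (d + 1) (d + 1) (d + 1) m} := by
    ext m
    simp only [Set.mem_ofPred_eq, Out, degree_three]
    omega
  have h1 := card_mons (a := d + 1) (b := d + 1) (c := d + 1) (by omega) d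
  rw [Nat.sub_self, show sq (d + 1) (d + 1) 0 = 0 by simp [sq],
    sq_choose le_rfl le_rfl, Nat.add_zero] at h1
  rw [h, ncard_out', h1]

lemma rank_lt_rank {a b c d : ℕ} {m m' : ℕ × ℕ × ℕ} (hm' : m' ∈ mons a b c d) (h : LexGT m' m) :
    rank a b c d m' < rank a b c d m := by
  unfold rank
  refine Finset.card_lt_card ((Finset.ssubset_iff_of_subset ?_).2 ⟨m', ?_, ?_⟩)
  · intro x hx
    rw [Finset.mem_filter] at hx ⊢
    refine ⟨hx.1, ?_⟩
    have hx2 := hx.2
    unfold LexGT at h hx2 ⊢
    omega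
  · exact Finset.mem_filter.2 ⟨hm', h⟩
  · rw [Finset.mem_filter]
    unfold LexGT
    omega

lemma card_rank_lt {a b c d q : ℕ} (hq : q ≤ (mons a b c d).card) :
    ((mons a b c d).filter fun m => rank a b c d m < q).card = q := by
  have hinj : Set.InjOn (rank a b c d) (mons a b c d : Set (ℕ × ℕ × ℕ)) := by
    intro m hm m' hm' he
    by_contra hne
    have hm2 := hm
    have hm2' := hm'
    simp only [mons, Finset.coe_filter, Set.mem_ofPred_eq, Finset.mem_product, Finset.mem_range] at hm2 hm2'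
    rcases (show LexGT m m' ∨ LexGT m' m by
      obtain ⟨i, j, l⟩ := m
      obtain ⟨i', j', l'⟩ := m'
      simp only [Prod.mk.injEq] at hne hm2 hm2' ⊢
      simp only [LexGT]
      omega) with h | h
    · have := rank_lt_rank hm h; omega
    · have := rank_lt_rank hm' h; omega
  have himg : (mons a b c d).image (rank a b c d) = Finset.range (mons a b c d).card := by
    refine Finset.eq_of_subset_of_card_le ?_ (by rw [Finset.card_image_of_injOn hinj, Finset.card_range])
    intro x hx
    obtain ⟨m, hm, rfl⟩ := Finset.mem_image.1 hx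
    refine Finset.mem_range.2 (Finset.card_lt_card ?_)
    exact (Finset.ssubset_iff_of_subset (Finset.filter_subset _ _)).2 ⟨m, hm, by
      rw [Finset.mem_filter]; unfold LexGT; omega⟩
  have h2 : ((mons a b c d).filter fun m => rank a b c d m < q).image (rank a b c d) = Finset.range q := by
    rw [← Finset.filter_image (p := fun k => k < q), himg]
    ext k
    simp only [Finset.mem_filter, Finset.mem_range]
    omega
  rw [← Finset.card_image_of_injOn (hinj.mono (Finset.coe_subset.2 (Finset.filter_subset _ _))), h2,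
    Finset.card_range]

lemma toLex_lt_iff {m m' : Fin 3 →₀ ℕ} (h : m.degree = m'.degree) :
    toLex m < toLex m' ↔ LexGT (trip m') (trip m) := by
  rw [degree_three, degree_three] at h
  constructor
  · rintro ⟨i, hj, hi⟩
    simp only [LexGT, trip]
    fin_cases i
    · exact Or.inl hi
    · exact Or.inr ⟨hj 0 (by decide), hi⟩
    · have h0 : m 0 = m' 0 := hj 0 (by decide)
      have h1 : m 1 = m' 1 := hj 1 (by decide)
      have h2 : m 2 < m' 2 := hi
      omega
  · intro hl
    simp only [LexGT, trip] at hl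
    rcases hl with hl | ⟨h0, hl⟩
    · exact ⟨0, fun j hj => absurd hj (Fin.not_lt_zero j), hl⟩
    · refine ⟨1, fun j hj => ?_, hl⟩
      fin_cases j
      · exact h0
      · exact absurd hj (by decide)
      · exact absurd hj (by decide)

end Counting

section Algebra

variable {K : Type u} [Field K]

lemma finrank_restrictSupport (s : Set (Fin 3 →₀ ℕ)) :
    finrank K ↥(restrictSupport K s) = s.ncard := by
  rw [finrank_eq_nat_card_basis (basisRestrictSupport K s), Nat.card_coe_set_eq]

lemma part_restrictSupport (s : Set (Fin 3 →₀ ℕ)) (hs : IsUpperSet s) (d : ℕ) :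
    part (restrictSupportIdeal (R := K) s hs) d = restrictSupport K {m | m.degree = d ∧ m ∈ s} := by
  rw [part, restrictScalars_restrictSupportIdeal, homogeneousSubmodule_eq_finsupp_supported]
  ext p
  simp only [Submodule.mem_inf, restrictSupport, AddMonoidAlgebra.mem_supported, Set.subset_def,
    Set.mem_ofPred_eq]
  exact ⟨fun h x hx => ⟨h.2 x hx, h.1 x hx⟩, fun h => ⟨fun x hx => (h x hx).2, fun x hx => (h x hx).1⟩⟩

lemma out_upper (a b c : ℕ) : IsUpperSet {m : Fin 3 →₀ ℕ | ¬Out a b c m} := fun _ _ hmn hm hn =>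
  hm ⟨(hmn 0).trans_lt hn.1, (hmn 1).trans_lt hn.2.1, (hmn 2).trans_lt hn.2.2⟩

lemma powers_eq (a b c : ℕ) :
    Ideal.span {X 0 ^ a, X 1 ^ b, (X 2 : MvPolynomial (Fin 3) K) ^ c}
      = restrictSupportIdeal (R := K) _ (out_upper a b c) := by
  have h : ({X 0 ^ a, X 1 ^ b, (X 2 : MvPolynomial (Fin 3) K) ^ c} : Set (MvPolynomial (Fin 3) K))
      = (fun s => monomial s 1) '' {Finsupp.single 0 a, Finsupp.single 1 b, Finsupp.single 2 c} := by
    simp [Set.image_insert_eq, X_pow_eq_monomial]
  rw [h]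
  ext p
  rw [mem_ideal_span_monomial_image]
  change _ ↔ (p.support : Set (Fin 3 →₀ ℕ)) ⊆ _
  refine forall₂_congr fun x _ => ?_
  simp only [Set.mem_insert_iff, Set.mem_singleton_iff, Set.mem_ofPred_eq, exists_eq_or_imp,
    exists_eq_left, Finsupp.single_le_iff, Out]
  omega

lemma monomial_mem_powers (a b c : ℕ) (m : Fin 3 →₀ ℕ) :
    monomial m (1 : K) ∈ Ideal.span {X 0 ^ a, X 1 ^ b, (X 2 : MvPolynomial (Fin 3) K) ^ c}
      ↔ ¬Out a b c m := by
  rw [powers_eq]
  change monomial m (1 : K) ∈ restrictSupport K {n | ¬Out a b c n} ↔ _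
  simp

lemma finite_degree (d : ℕ) : {m : Fin 3 →₀ ℕ | m.degree = d}.Finite :=
  Set.finite_of_ncard_pos (by rw [ncard_degree]; exact Nat.choose_pos (by omega))

lemma finrank_part_powers (a b c d : ℕ) :
    finrank K ↥(part (Ideal.span {X 0 ^ a, X 1 ^ b, (X 2 : MvPolynomial (Fin 3) K) ^ c}) d)
      + (mons a b c d).card = (d + 2).choose 2 := by
  rw [powers_eq, part_restrictSupport, finrank_restrictSupport, ← ncard_out', ← ncard_degree]
  rw [← Set.ncard_union_eq ?_ ((finite_degree d).subset fun m hm => hm.1)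
    ((finite_degree d).subset fun m hm => hm.1)]
  · congr 1
    ext m
    simp only [Set.mem_union, Set.mem_ofPred_eq]
    tauto
  · rw [Set.disjoint_left]
    exact fun m h h' => h.2 h'.2

lemma part_map_equiv (A : MvPolynomial (Fin 3) K ≃ₐ[K] MvPolynomial (Fin 3) K)
    (hA : ∀ d p, (A p).IsHomogeneous d ↔ p.IsHomogeneous d) (I : Ideal (MvPolynomial (Fin 3) K))
    (d : ℕ) : finrank K ↥(part (I.map A) d) = finrank K ↥(part I d) := by
  have h : part (I.map A) d = (part I d).map (A.toLinearEquiv : _ →ₗ[K] MvPolynomial (Fin 3) K) := by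
    ext p
    rw [Submodule.mem_map_equiv]
    simp only [part, Submodule.mem_inf, Submodule.restrictScalars_mem, mem_homogeneousSubmodule]
    refine and_congr ?_ ?_
    · rw [Ideal.mem_map_iff_of_surjective _ A.surjective]
      constructor
      · rintro ⟨x, hx, rfl⟩; simpa using hx
      · intro hx; exact ⟨A.symm p, hx, by simp⟩
    · conv_lhs => rw [← A.apply_symm_apply p, hA]
      rfl
  rw [h, LinearEquiv.finrank_map_eq]

/-- The numerical heart: the Clements-Lindström step holds between all degrees. -/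
theorem lexStep_of_regular {a b c : ℕ} (ha : 2 ≤ a) (hab : a ≤ b) (hbc : b ≤ c)
    {f₁ f₂ f₃ : MvPolynomial (Fin 3) K} (h₁ : f₁.IsHomogeneous a) (h₂ : f₂.IsHomogeneous b)
    (h₃ : f₃.IsHomogeneous c)
    (hreg : RingTheory.Sequence.IsRegular (MvPolynomial (Fin 3) K) [f₁, f₂, f₃])
    {I : Ideal (MvPolynomial (Fin 3) K)} (hI : ∀ p ∈ I, ∀ d, homogeneousComponent d p ∈ I)
    (m₁ : f₁ ∈ I) (m₂ : f₂ ∈ I) (m₃ : f₃ ∈ I) (e : ℕ) :
    LexStep a b c e (finrank K ↥(part I e) + (mons a b c e).card - (e + 2).choose 2)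
      (finrank K ↥(part I (e + 1)) + (mons a b c (e + 1)).card - (e + 3).choose 2) ∧
    (e + 2).choose 2 ≤ finrank K ↥(part I e) + (mons a b c e).card ∧
    finrank K ↥(part I e) ≤ (e + 2).choose 2 := by
  obtain ⟨L, _, _, g₁, g₂, g₃, J, k₁, k₂, k₃, kreg, -, n₁, n₂, n₃, hdim⟩ :=
    exists_infinite h₁ h₂ h₃ (reg3_of_isRegular hreg) hI m₁ m₂ m₃
  obtain ⟨A, hA, H1, H2, H3, H4, H5⟩ :=
    exists_coords (by omega) (by omega) (by omega) k₁ k₂ k₃ kreg
  have h := step_of_coords ha hab hbc (step_holds L ha hab hbc) ((hA a g₁).2 k₁) ((hA b g₂).2 k₂)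
    ((hA c g₃).2 k₃) H1 H2 H3 H4 H5 (J.map A) (Ideal.mem_map_of_mem _ n₁)
    (Ideal.mem_map_of_mem _ n₂) (Ideal.mem_map_of_mem _ n₃) e
  simpa only [part_map_equiv A hA, hdim] using h

/-- The exponents of the lex-plus-powers monomials for the numbers `q`. -/
def lppSet (a b c : ℕ) (q : ℕ → ℕ) : Set (Fin 3 →₀ ℕ) :=
  {m | Out a b c m → rank a b c m.degree (trip m) < q m.degree}

lemma lppSet_upper {a b c : ℕ} {q : ℕ → ℕ} (h : ∀ e, LexStep a b c e (q e) (q (e + 1))) :
    IsUpperSet (lppSet a b c q) := by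
  have key : ∀ (k : ℕ) (m n : Fin 3 →₀ ℕ), m ≤ n → n.degree = m.degree + k →
      m ∈ lppSet a b c q → n ∈ lppSet a b c q := by
    intro k
    induction k with
    | zero =>
      intro m n hmn hd hm
      have : n = m := by
        ext i
        have h0 := hmn 0
        have h1 := hmn 1
        have h2 := hmn 2
        rw [degree_three, degree_three] at hd
        fin_cases i <;> simp <;> omega
      rwa [this]
    | succ k ih =>
      intro m n hmn hd hm hn
      obtain ⟨i, hi⟩ : ∃ i, m i < n i := by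
        by_contra hall
        push Not at hall
        have h0 := hall 0
        have h1 := hall 1
        have h2 := hall 2
        rw [degree_three, degree_three] at hd
        omega
      have hle : m + Finsupp.single i 1 ≤ n := by
        intro j
        have := hmn j
        rcases eq_or_ne j i with rfl | hj
        · simp; omega
        · simp [hj.symm]; omega
      have hdeg : (m + Finsupp.single i 1).degree = m.degree + 1 := by simp
      refine ih (m + Finsupp.single i 1) n hle (by omega) (fun ho' => ?_) hn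
      have ho : Out a b c m :=
        ⟨(le_self_add.trans_lt ho'.1), (le_self_add.trans_lt ho'.2.1), (le_self_add.trans_lt ho'.2.2)⟩
      rw [hdeg]
      exact h m.degree (trip m) (trip_mem_mons.2 ⟨ho, rfl⟩) (hm ho)
        (trip (m + Finsupp.single i 1)) (trip_mem_mons.2 ⟨ho', hdeg⟩)
        le_self_add le_self_add le_self_add
  intro m n hmn hm
  obtain ⟨k, hk⟩ := Nat.exists_eq_add_of_le (Finsupp.degree_mono hmn)
  exact key k m n hmn hk hm

lemma part_lpp_finrank {a b c : ℕ} {q : ℕ → ℕ} (hs : IsUpperSet (lppSet a b c q)) (d : ℕ)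
    (hq : q d ≤ (mons a b c d).card) :
    finrank K ↥(part (restrictSupportIdeal (R := K) _ hs) d) + (mons a b c d).card
      = (d + 2).choose 2 + q d := by
  classical
  rw [part_restrictSupport, finrank_restrictSupport]
  have h : {m : Fin 3 →₀ ℕ | m.degree = d ∧ m ∈ lppSet a b c q}
      = {m | m.degree = d ∧ ¬Out a b c m}
        ∪ {m | m.degree = d ∧ Out a b c m ∧ rank a b c d (trip m) < q d} := by
    ext m
    simp only [Set.mem_ofPred_eq, lppSet, Set.mem_union]
    constructor
    · rintro ⟨rfl, hm⟩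
      by_cases ho : Out a b c m
      · exact Or.inr ⟨rfl, ho, hm ho⟩
      · exact Or.inl ⟨rfl, ho⟩
    · rintro (⟨hd, ho⟩ | ⟨rfl, ho, hr⟩)
      · exact ⟨hd, fun ho' => absurd ho' ho⟩
      · exact ⟨rfl, fun _ => hr⟩
  rw [h, Set.ncard_union_eq ?_ ((finite_degree d).subset fun m hm => hm.1)
    ((finite_degree d).subset fun m hm => hm.1),
    ncard_out a b c d (fun t => rank a b c d t < q d), card_rank_lt hq]
  · have h2 := finrank_part_powers (K := K) a b c d
    rw [powers_eq, part_restrictSupport, finrank_restrictSupport] at h2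
    simp only [Set.mem_ofPred_eq] at h2
    omega
  · rw [Set.disjoint_left]
    exact fun m h h' => h.2 h'.2.1

/-- The lex-plus-powers space is an ideal with the Hilbert function of `I`. -/
theorem exists_lpp {a b c : ℕ} (ha : 2 ≤ a) (hab : a ≤ b) (hbc : b ≤ c)
    {f₁ f₂ f₃ : MvPolynomial (Fin 3) K} (h₁ : f₁.IsHomogeneous a) (h₂ : f₂.IsHomogeneous b)
    (h₃ : f₃.IsHomogeneous c)
    (hreg : RingTheory.Sequence.IsRegular (MvPolynomial (Fin 3) K) [f₁, f₂, f₃])
    {I : Ideal (MvPolynomial (Fin 3) K)} (hI : ∀ p ∈ I, ∀ d, homogeneousComponent d p ∈ I)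
    (m₁ : f₁ ∈ I) (m₂ : f₂ ∈ I) (m₃ : f₃ ∈ I) :
    ∃ J : Ideal (MvPolynomial (Fin 3) K), ∀ d,
      part J d = Submodule.span K ((fun m => monomial m (1 : K)) ''
        {m : Fin 3 →₀ ℕ | m.degree = d ∧
          (monomial m 1 ∈ Ideal.span {X 0 ^ a, X 1 ^ b, (X 2 : MvPolynomial (Fin 3) K) ^ c} ∨
            {m' : Fin 3 →₀ ℕ | m'.degree = d ∧ toLex m < toLex m' ∧
                monomial m' 1 ∉ Ideal.span {X 0 ^ a, X 1 ^ b, (X 2 : MvPolynomial (Fin 3) K) ^ c}}.ncard <
              finrank K ↥(part I d) -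
                finrank K ↥(part (Ideal.span {X 0 ^ a, X 1 ^ b, (X 2 : MvPolynomial (Fin 3) K) ^ c}) d))}) ∧
      finrank K ↥(part J d) = finrank K ↥(part I d) := by
  classical
  set q : ℕ → ℕ := fun d => finrank K ↥(part I d) -
    finrank K ↥(part (Ideal.span {X 0 ^ a, X 1 ^ b, (X 2 : MvPolynomial (Fin 3) K) ^ c}) d) with hq
  have hstep := lexStep_of_regular ha hab hbc h₁ h₂ h₃ hreg hI m₁ m₂ m₃
  have hqe : ∀ d, q d = finrank K ↥(part I d) + (mons a b c d).card - (d + 2).choose 2 := by
    intro d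
    have := finrank_part_powers (K := K) a b c d
    have := (hstep d).2.1
    simp only [hq]
    omega
  have hs : IsUpperSet (lppSet a b c q) := lppSet_upper fun e => by
    rw [hqe, hqe]; exact (hstep e).1
  refine ⟨restrictSupportIdeal (R := K) _ hs, fun d => ⟨?_, ?_⟩⟩
  · rw [part_restrictSupport, restrictSupport_eq_span]
    congr 2
    ext m
    simp only [Set.mem_ofPred_eq, monomial_mem_powers, not_not, lppSet]
    refine and_congr_right fun hd => ?_
    subst hd
    have hset : {m' : Fin 3 →₀ ℕ | m'.degree = m.degree ∧ toLex m < toLex m' ∧ Out a b c m'}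
        = {m' | m'.degree = m.degree ∧ Out a b c m' ∧ LexGT (trip m') (trip m)} := by
      ext m'
      simp only [Set.mem_ofPred_eq]
      constructor
      · rintro ⟨h1, h2, h3⟩; exact ⟨h1, h3, (toLex_lt_iff h1.symm).1 h2⟩
      · rintro ⟨h1, h3, h2⟩; exact ⟨h1, (toLex_lt_iff h1.symm).2 h2, h3⟩
    rw [hset, ncard_out a b c m.degree (fun t => LexGT t (trip m)), imp_iff_not_or]
    rfl
  · have h1 := hstep d
    have h2 := hqe d
    have h3 := part_lpp_finrank (K := K) hs d (by omega)
    omega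

end Algebra

end Vale.P200
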