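import Mathlib

/-!
P200: abstract frame for the growth theorem in two affine variables.
-/

namespace Vale.P200

open Module

/-- Polynomials in two variables with all monomials of degree `< k`. -/
noncomputable def plt (K : Type*) [Field K] (k : ℕ) : Submodule K (MvPolynomial (Fin 2) K) :=
  MvPolynomial.restrictSupport K {d | d 0 + d 1 < k}

variable {K F : Type*} [Field K] [CommRing F] [Algebra K F]

/-- The image of polynomials of degree `< k` in `(y, z)`. -/
noncomputable def Gp (y z : F) (k : ℕ) : Submodule K F :=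
  (plt K k).map (MvPolynomial.aeval ![y, z]).toLinearMap

/-- `a • M` for a submodule `M`. -/
abbrev sm (a : F) (M : Submodule K F) : Submodule K F := M.map (LinearMap.mulLeft K a)

/-- `M + yM + zM`. -/
abbrev nb (y z : F) (M : Submodule K F) : Submodule K F := M ⊔ sm y M ⊔ sm z M

/-- The dimension of the top layer of `M` relative to `Gp y z j`. -/
noncomputable def tp (y z : F) (M : Submodule K F) (j : ℕ) : ℕ :=
  finrank K ↥(M ⊔ Gp y z j) - finrank K ↥(Gp (K := K) y z j)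

/-- The number of `(j, l)` with `j < b`, `l < c` and `j + l < k`. -/
def sq (b c k : ℕ) : ℕ := ((Finset.range b ×ˢ Finset.range c).filter fun p => p.1 + p.2 < k).card

/-- The monomials of degree `e` outside `(X₀^a, X₁^b, X₂^c)`, as exponent triples. -/
def mons (a b c e : ℕ) : Finset (ℕ × ℕ × ℕ) :=
  (Finset.range a ×ˢ Finset.range b ×ˢ Finset.range c).filter fun m => m.1 + m.2.1 + m.2.2 = e

/-- `m'` is lexicographically greater than `m` (for monomials of one degree). -/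
def LexGT (m' m : ℕ × ℕ × ℕ) : Prop := m.1 < m'.1 ∨ (m.1 = m'.1 ∧ m.2.1 < m'.2.1)

instance (m' m : ℕ × ℕ × ℕ) : Decidable (LexGT m' m) := by unfold LexGT; infer_instance

/-- The number of monomials of degree `e` outside the powers above `m`. -/
def rank (a b c e : ℕ) (m : ℕ × ℕ × ℕ) : ℕ := ((mons a b c e).filter fun m' => LexGT m' m).card

/-- Every multiple in degree `e + 1` of the first `q` monomials is among the first `w`. -/
def LexStep (a b c e q w : ℕ) : Prop :=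
  ∀ m ∈ mons a b c e, rank a b c e m < q → ∀ m' ∈ mons a b c (e + 1),
    m.1 ≤ m'.1 → m.2.1 ≤ m'.2.1 → m.2.2 ≤ m'.2.2 → rank a b c (e + 1) m' < w

/-- The properties of `K[y,z]/(φ₂,φ₃)` with its degree filtration that the growth theorem uses. -/
structure IsFrame (y z : F) (b D : ℕ) (lam : F →ₗ[K] K) : Prop where
  one_le_b : 1 ≤ b
  b_le : b ≤ D + 1
  free : ∀ p ∈ plt K b, MvPolynomial.aeval ![y, z] p = 0 → p = 0
  top : Gp (K := K) y z (D + 1) = ⊤
  socle : ∀ k < D, ∀ u ∈ Gp (K := K) y z (k + 1), y * u ∈ Gp (K := K) y z (k + 1) →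
    z * u ∈ Gp (K := K) y z (k + 1) → u ∈ Gp (K := K) y z k
  perp : ∀ k, ∀ u : F,
    (∀ g ∈ Gp (K := K) y z k, lam (u * g) = 0) ↔ u ∈ Gp (K := K) y z (D + 1 - k)
  grow : ∀ j ≤ D, ∀ M : Submodule K F, M ≤ Gp y z (j + 1) →
    tp y z M j ≤ tp y z (nb y z M) (j + 1) ∨
      (D + 1 - j ≤ tp y z M j ∧ tp y z M j ≤ tp y z (nb y z M) (j + 1) + 1)

lemma mem_plt {k : ℕ} {p : MvPolynomial (Fin 2) K} :
    p ∈ plt K k ↔ ∀ d ∈ p.support, d 0 + d 1 < k := by
  simp [plt, MvPolynomial.mem_restrictSupport_iff, Set.subset_def]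

lemma plt_mono {i j : ℕ} (h : i ≤ j) : plt K i ≤ plt K j := fun _ hp =>
  mem_plt.2 fun d hd => lt_of_lt_of_le (mem_plt.1 hp d hd) h

lemma plt_zero : plt K 0 = ⊥ := by
  rw [eq_bot_iff]
  intro p hp
  rw [Submodule.mem_bot, ← MvPolynomial.support_eq_empty, Finset.eq_empty_iff_forall_notMem]
  intro d hd
  exact absurd (mem_plt.1 hp d hd) (by omega)

lemma plt_mul {i j : ℕ} {p q : MvPolynomial (Fin 2) K} (hp : p ∈ plt K i) (hq : q ∈ plt K j) :
    p * q ∈ plt K (i + j - 1) := by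
  classical
  rw [mem_plt] at *
  intro d hd
  obtain ⟨u, hu, v, hv, rfl⟩ := Finset.mem_add.1 (MvPolynomial.support_mul p q hd)
  have := hp u hu
  have := hq v hv
  simp only [Finsupp.add_apply]
  omega

lemma X_mem_plt (i : Fin 2) : (MvPolynomial.X i : MvPolynomial (Fin 2) K) ∈ plt K 2 := by
  rw [mem_plt]
  intro d hd
  rw [MvPolynomial.support_X, Finset.mem_singleton] at hd
  subst hd
  fin_cases i <;> simp

lemma C_mem_plt (r : K) : (MvPolynomial.C r : MvPolynomial (Fin 2) K) ∈ plt K 1 := by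
  rw [mem_plt]
  intro d hd
  classical
  rw [MvPolynomial.mem_support_iff, MvPolynomial.coeff_C] at hd
  split_ifs at hd with h
  · subst h; simp
  · exact absurd rfl hd

lemma one_mem_plt : (1 : MvPolynomial (Fin 2) K) ∈ plt K 1 := by
  rw [← MvPolynomial.C_1]; exact C_mem_plt 1

section G

variable {y z : F}

lemma mem_Gp {k : ℕ} {u : F} :
    u ∈ Gp (K := K) y z k ↔ ∃ p ∈ plt K k, MvPolynomial.aeval ![y, z] p = u := by
  simp [Gp, Submodule.mem_map]

lemma Gp_mono {i j : ℕ} (h : i ≤ j) : Gp (K := K) y z i ≤ Gp y z j :=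
  Submodule.map_mono (plt_mono h)

lemma Gp_zero : Gp (K := K) y z 0 = ⊥ := by simp [Gp, plt_zero]

lemma Gp_mul {i j : ℕ} {u v : F} (hu : u ∈ Gp (K := K) y z i) (hv : v ∈ Gp (K := K) y z j) :
    u * v ∈ Gp (K := K) y z (i + j - 1) := by
  obtain ⟨p, hp, rfl⟩ := mem_Gp.1 hu
  obtain ⟨q, hq, rfl⟩ := mem_Gp.1 hv
  exact mem_Gp.2 ⟨p * q, plt_mul hp hq, map_mul _ _ _⟩

lemma one_mem_Gp {k : ℕ} (hk : 1 ≤ k) : (1 : F) ∈ Gp (K := K) y z k :=
  Gp_mono hk (mem_Gp.2 ⟨1, one_mem_plt, map_one _⟩)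

lemma y_mem_Gp : y ∈ Gp (K := K) y z 2 := mem_Gp.2 ⟨.X 0, X_mem_plt 0, by simp⟩

lemma z_mem_Gp : z ∈ Gp (K := K) y z 2 := mem_Gp.2 ⟨.X 1, X_mem_plt 1, by simp⟩

lemma y_mul_Gp {k : ℕ} {u : F} (hu : u ∈ Gp (K := K) y z k) :
    y * u ∈ Gp (K := K) y z (k + 1) :=
  Gp_mono (by omega) (Gp_mul y_mem_Gp hu)

lemma z_mul_Gp {k : ℕ} {u : F} (hu : u ∈ Gp (K := K) y z k) :
    z * u ∈ Gp (K := K) y z (k + 1) :=
  Gp_mono (by omega) (Gp_mul z_mem_Gp hu)

lemma t_mem_Gp (s : K) : y + s • z ∈ Gp (K := K) y z 2 :=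
  add_mem y_mem_Gp (Submodule.smul_mem _ _ z_mem_Gp)

lemma t_mul_Gp (s : K) {k : ℕ} {u : F} (hu : u ∈ Gp (K := K) y z k) :
    (y + s • z) * u ∈ Gp (K := K) y z (k + 1) :=
  Gp_mono (by omega) (Gp_mul (t_mem_Gp s) hu)

lemma nb_Gp_le (k : ℕ) : nb y z (Gp (K := K) y z k) ≤ Gp y z (k + 1) := by
  refine sup_le (sup_le (Gp_mono (by omega)) ?_) ?_
  · rintro _ ⟨u, hu, rfl⟩; exact y_mul_Gp hu
  · rintro _ ⟨u, hu, rfl⟩; exact z_mul_Gp hu

lemma nb_mono {M N : Submodule K F} (h : M ≤ N) : nb y z M ≤ nb y z N :=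
  sup_le_sup (sup_le_sup h (Submodule.map_mono h)) (Submodule.map_mono h)

lemma mul_mem_of_sm_le {a : F} {M N : Submodule K F} (h : sm a M ≤ N) {u : F} (hu : u ∈ M) :
    a * u ∈ N := h ⟨u, hu, rfl⟩

end G

section Dim

variable [FiniteDimensional K F]

lemma finrank_map_ker (f : F →ₗ[K] F) (P : Submodule K F) :
    finrank K ↥(P.map f) + finrank K ↥(P ⊓ LinearMap.ker f) = finrank K P := by
  have h := LinearMap.finrank_range_add_finrank_ker (f.domRestrict P)
  rw [LinearMap.range_domRestrict, LinearMap.ker_domRestrict] at h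
  rw [← h, ← Submodule.map_comap_subtype, Submodule.finrank_map_subtype_eq]

/-- Rank-nullity for multiplication by `a` from `A` into `F ⧸ B`. -/
lemma finrank_rk (a : F) (A B : Submodule K F) :
    finrank K ↥(B ⊔ sm a A) + finrank K ↥(A ⊓ B.comap (LinearMap.mulLeft K a))
      = finrank K B + finrank K A := by
  set f := LinearMap.mulLeft K a
  have h1 := Submodule.finrank_sup_add_finrank_inf_eq B (A.map f)
  have h2 := finrank_map_ker f A
  have h3 := finrank_map_ker f (A ⊓ B.comap f)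
  have e1 : (A ⊓ B.comap f).map f = B ⊓ A.map f := by
    ext v
    simp only [Submodule.mem_map, Submodule.mem_inf, Submodule.mem_comap]
    constructor
    · rintro ⟨x, ⟨hx, hB⟩, rfl⟩; exact ⟨hB, x, hx, rfl⟩
    · rintro ⟨hB, x, hx, rfl⟩; exact ⟨x, ⟨hx, hB⟩, rfl⟩
  have e2 : (A ⊓ B.comap f) ⊓ LinearMap.ker f = A ⊓ LinearMap.ker f := by
    ext x
    simp only [Submodule.mem_inf, Submodule.mem_comap, LinearMap.mem_ker]
    constructor
    · rintro ⟨⟨h, -⟩, h'⟩; exact ⟨h, h'⟩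
    · rintro ⟨h, h'⟩; exact ⟨⟨h, by rw [h']; exact B.zero_mem⟩, h'⟩
  rw [e1, e2] at h3
  change finrank K ↥(B ⊔ A.map f) + _ = _
  omega

lemma tp_eq (y z : F) (M : Submodule K F) (j : ℕ) :
    tp y z M j + finrank K ↥(M ⊓ Gp (K := K) y z j) = finrank K M := by
  have := Submodule.finrank_sup_add_finrank_inf_eq M (Gp (K := K) y z j)
  have := Submodule.finrank_mono (R := K) (le_sup_right : Gp (K := K) y z j ≤ M ⊔ Gp y z j)
  unfold tp
  omega

end Dim

end Vale.P200
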