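import Vale.Agent.P200.Base

/-!
P200: the Clements-Lindström combinatorics in three variables that the growth theorem feeds.
-/

namespace Vale.P200

open Finset

/-- The number of `(j, l)` with `j < b`, `l < c` and `j + l = d`. -/
def diag (b c d : ℕ) : ℕ := ((range b ×ˢ range c).filter fun p => p.1 + p.2 = d).card

lemma sq_succ (b c k : ℕ) : sq b c (k + 1) = sq b c k + diag b c k := by
  rw [sq, sq, diag, ← card_union_of_disjoint]
  · congr 1
    ext p
    simp only [mem_filter, mem_union]
    grind
  · simp only [disjoint_left, mem_filter]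
    grind

lemma sq_mono (b c : ℕ) : Monotone (sq b c) :=
  monotone_nat_of_le_succ fun k => by rw [sq_succ]; omega

lemma sq_le_mul (b c k : ℕ) : sq b c k ≤ b * c :=
  (card_filter_le _ _).trans (by simp)

lemma diag_le_succ (b c d : ℕ) : diag b c d ≤ d + 1 := by
  refine (card_le_card_of_injOn (fun p : ℕ × ℕ => p.1) (t := range (d + 1)) ?_ ?_).trans (by simp)
  · intro p hp
    simp only [coe_filter, Set.mem_ofPred_eq, mem_product, mem_range, coe_range, Set.mem_Iio] at *
    omega
  · intro p hp q hq h
    simp only [coe_filter, Set.mem_ofPred_eq] at hp hq h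
    exact Prod.ext h (by omega)

lemma diag_le_left (b c d : ℕ) : diag b c d ≤ b := by
  refine (card_le_card_of_injOn (fun p : ℕ × ℕ => p.1) (t := range b) ?_ ?_).trans (by simp)
  · intro p hp
    simp only [coe_filter, Set.mem_ofPred_eq, mem_product, mem_range, coe_range, Set.mem_Iio] at *
    omega
  · intro p hp q hq h
    simp only [coe_filter, Set.mem_ofPred_eq] at hp hq h
    exact Prod.ext h (by omega)

lemma diag_le_compl (b c d : ℕ) : diag b c d ≤ b + c - 1 - d := by
  refine (card_le_card_of_injOn (fun p : ℕ × ℕ => p.1) (t := Ico (d + 1 - c) b) ?_ ?_).trans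
    (by simp; omega)
  · intro p hp
    simp only [coe_filter, Set.mem_ofPred_eq, mem_product, mem_range, coe_Ico, Set.mem_Ico] at *
    omega
  · intro p hp q hq h
    simp only [coe_filter, Set.mem_ofPred_eq] at hp hq h
    exact Prod.ext h (by omega)

lemma diag_eq_left {b c d : ℕ} (hb : b ≤ d + 1) (hc : d < c) : diag b c d = b := by
  refine le_antisymm (diag_le_left b c d) ?_
  refine le_trans (by simp) (card_le_card_of_injOn (fun j => (j, d - j)) (s := range b) ?_ ?_)
  · intro j hj
    simp only [coe_filter, Set.mem_ofPred_eq, mem_product, mem_range, coe_range, Set.mem_Iio] at *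
    omega
  · intro i hi j hj h
    exact (Prod.mk.injEq .. ▸ h).1

lemma diag_eq_succ {b c d : ℕ} (hb : d < b) (hc : d < c) : diag b c d = d + 1 := by
  refine le_antisymm (diag_le_succ b c d) ?_
  refine le_trans (by simp) (card_le_card_of_injOn (fun j => (j, d - j)) (s := range (d + 1)) ?_ ?_)
  · intro j hj
    simp only [coe_filter, Set.mem_ofPred_eq, mem_product, mem_range, coe_range, Set.mem_Iio] at *
    omega
  · intro i hi j hj h
    exact (Prod.mk.injEq .. ▸ h).1

lemma sq_choose {b c k : ℕ} (hbc : b ≤ c) (hk : k ≤ b) : sq b c k = (k + 1).choose 2 := by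
  induction k with
  | zero => simp [sq]
  | succ k ih =>
    rw [sq_succ, ih (by omega), diag_eq_succ (by omega) (by omega)]
    have := Nat.choose_succ_succ' (k + 1) 1
    simp only [Nat.choose_one_right, Nat.reduceAdd] at this
    omega

lemma sq_top {b c k : ℕ} (hk : b + c ≤ k + 1) : sq b c k = b * c := by
  rw [sq, filter_true_of_mem fun p hp => ?_]
  · simp
  · simp only [mem_product, mem_range] at hp
    omega

lemma sq_symm {b c k : ℕ} (hk : k + 1 ≤ b + c) : sq b c k + sq b c (b + c - 1 - k) = b * c := by
  rw [sq, sq]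
  have h := card_filter_add_card_filter_not (s := range b ×ˢ range c) (fun p => p.1 + p.2 < k)
  simp only [card_product, card_range] at h
  refine Eq.trans ?_ h
  congr 1
  refine card_nbij' (fun p => (b - 1 - p.1, c - 1 - p.2)) (fun p => (b - 1 - p.1, c - 1 - p.2))
    ?_ ?_ ?_ ?_ <;> intro p hp <;>
    simp only [coe_filter, Set.mem_ofPred_eq, mem_product, mem_range, Prod.ext_iff] at * <;>
    omega

lemma mem_mons {a b c e : ℕ} {m : ℕ × ℕ × ℕ} :
    m ∈ mons a b c e ↔ m.1 < a ∧ m.2.1 < b ∧ m.2.2 < c ∧ m.1 + m.2.1 + m.2.2 = e := by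
  simp [mons, and_assoc]

lemma card_mons_ge {a b c : ℕ} (e lo : ℕ) (hlo : lo ≤ a) :
    ((mons a b c e).filter fun m => lo ≤ m.1).card + sq b c (e + 1 - a) = sq b c (e + 1 - lo) := by
  have h : ((mons a b c e).filter fun m => lo ≤ m.1).card
      = ((range b ×ˢ range c).filter fun p =>
          p.1 + p.2 < e + 1 - lo ∧ ¬ p.1 + p.2 < e + 1 - a).card := by
    refine card_nbij' (fun m => m.2) (fun p => (e - (p.1 + p.2), p)) ?_ ?_ ?_ ?_ <;> intro p hp <;>
      simp only [coe_filter, Set.mem_ofPred_eq, mem_mons, mem_product, mem_range, Prod.ext_iff,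
        and_true] at * <;>
      omega
  rw [h, sq, sq, ← card_union_of_disjoint]
  · congr 1
    ext p
    simp only [mem_filter, mem_union]
    grind
  · simp only [disjoint_left, mem_filter]
    grind

/-- `card (mons e) = sq (e+1) - sq (e+1-a)`. -/
lemma card_mons {a b c : ℕ} (ha : 1 ≤ a) (e : ℕ) :
    (mons a b c e).card + sq b c (e + 1 - a) = sq b c (e + 1) := by
  have h := card_mons_ge (b := b) (c := c) e 0 (Nat.zero_le a)
  simpa using h

/-- The position of a monomial among the pairs `(j, l)`. -/
lemma rank_add_sq {a b c e : ℕ} {m : ℕ × ℕ × ℕ} (hm : m ∈ mons a b c e) :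
    rank a b c e m + sq b c (e + 1 - a) =
      sq b c (e - m.1) + (min (b - 1) (e - m.1) - m.2.1) := by
  rw [mem_mons] at hm
  have h := card_mons_ge (b := b) (c := c) e (m.1 + 1) hm.1
  rw [show e + 1 - (m.1 + 1) = e - m.1 by omega] at h
  have h1 : ((mons a b c e).filter fun m' => m'.1 = m.1 ∧ m.2.1 < m'.2.1).card
      = (Ioc m.2.1 (min (b - 1) (e - m.1))).card := by
    refine card_nbij' (fun m' => m'.2.1) (fun j => (m.1, j, e - m.1 - j)) ?_ ?_ ?_ ?_ <;>
      intro p hp <;>
      simp only [coe_filter, Set.mem_ofPred_eq, mem_mons, coe_Ioc, Set.mem_Ioc,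
        Prod.ext_iff, true_and, and_true] at * <;>
      omega
  have h2 : rank a b c e m = ((mons a b c e).filter fun m' => m.1 + 1 ≤ m'.1).card
      + ((mons a b c e).filter fun m' => m'.1 = m.1 ∧ m.2.1 < m'.2.1).card := by
    rw [rank, ← card_union_of_disjoint]
    · congr 1
      ext p
      simp only [mem_filter, mem_union, LexGT]
      grind
    · simp only [disjoint_left, mem_filter]
      grind
  rw [h2, h1, Nat.card_Ioc]
  omega

/-- Each step is checked one first exponent at a time, in pair coordinates. -/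
lemma lexStep_of {a b c e q w : ℕ}
    (hle : sq b c (e + 1 - a) + q ≤ sq b c (e + 2 - a) + w)
    (h : ∀ d ≤ e, sq b c d < sq b c (e + 1 - a) + q →
      sq b c (e + 1 - a) + q + diag b c d + (if d + 1 < b then 1 else 0) ≤ sq b c (e + 2 - a) + w ∨
      sq b c (d + 2) ≤ sq b c (e + 2 - a) + w) :
    LexStep a b c e q w := by
  intro m hm hr m' hm' h1 h2 h3
  have p := rank_add_sq hm
  have p' := rank_add_sq hm'
  rw [mem_mons] at hm hm'
  rw [show e + 1 + 1 - a = e + 2 - a by omega] at p'
  rcases (show m'.1 = m.1 ∨ m'.1 = m.1 + 1 by omega) with h4 | h4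
  · rw [h4, show e + 1 - m.1 = e - m.1 + 1 by omega, sq_succ] at p'
    rcases h (e - m.1) (by omega) (by omega) with h5 | h5
    · split_ifs at h5 with h6 <;> omega
    · rw [sq_succ, sq_succ] at h5
      -- the row position is below the length of the next row
      have h6 : min (b - 1) (e - m.1 + 1) - m'.2.1 < diag b c (e - m.1 + 1) := by
        refine lt_of_lt_of_le ?_ (card_le_card_of_injOn (fun j => (j, e - m.1 + 1 - j))
          (s := Icc m'.2.1 (min (b - 1) (e - m.1 + 1))) ?_ ?_)
        · rw [Nat.card_Icc]; omega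
        · intro j hj
          simp only [coe_filter, Set.mem_ofPred_eq, mem_product, mem_range, coe_Icc,
            Set.mem_Icc] at *
          omega
        · intro i hi j hj hij
          exact (Prod.mk.injEq .. ▸ hij).1
      omega
  · rw [h4, show e + 1 - (m.1 + 1) = e - m.1 by omega] at p'
    omega

/-- Complementation in the box. -/
def flipMon (a b c : ℕ) (m : ℕ × ℕ × ℕ) : ℕ × ℕ × ℕ := (a - 1 - m.1, b - 1 - m.2.1, c - 1 - m.2.2)

lemma rank_flip {a b c e e' : ℕ} (he : e + e' + 3 = a + b + c) {m : ℕ × ℕ × ℕ}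
    (hm : m ∈ mons a b c e) :
    flipMon a b c m ∈ mons a b c e' ∧
      rank a b c e m + rank a b c e' (flipMon a b c m) + 1 = (mons a b c e).card := by
  rw [mem_mons] at hm
  refine ⟨by simp only [flipMon, mem_mons]; omega, ?_⟩
  have h1 : rank a b c e' (flipMon a b c m) = ((mons a b c e).filter fun m' => LexGT m m').card := by
    refine card_nbij' (flipMon a b c) (flipMon a b c) ?_ ?_ ?_ ?_ <;> intro p hp <;>
      simp only [coe_filter, Set.mem_ofPred_eq, mem_mons] at * <;>
      simp only [flipMon, LexGT, Prod.ext_iff] at * <;>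
      omega
  have h2 := card_filter_add_card_filter_not (s := mons a b c e) (fun m' => LexGT m' m)
  have h3 : ((mons a b c e).filter fun m' => ¬ LexGT m' m)
      = insert m ((mons a b c e).filter fun m' => LexGT m m') := by
    ext p
    simp only [mem_filter, mem_insert, mem_mons]
    simp only [LexGT, Prod.ext_iff]
    omega
  have h4 : m ∉ (mons a b c e).filter fun m' => LexGT m m' := by
    rw [mem_filter]
    simp [LexGT]
  rw [h3, card_insert_of_notMem h4] at h2
  rw [h1, rank]
  omega

/-- Complementation exchanges the step at `e` and at `a + b + c - 4 - e`. -/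
lemma lexStep_dual {a b c e e' q w : ℕ} (he : e + e' + 4 = a + b + c)
    (hq : q ≤ (mons a b c e).card) (hw : w ≤ (mons a b c (e + 1)).card)
    (h : LexStep a b c e' ((mons a b c (e + 1)).card - w) ((mons a b c e).card - q)) :
    LexStep a b c e q w := by
  intro m hm hr m' hm' h1 h2 h3
  obtain ⟨f1, f2⟩ := rank_flip (e' := e' + 1) (by omega) hm
  obtain ⟨g1, g2⟩ := rank_flip (e' := e') (by omega) hm'
  by_contra hlt
  have := h _ g1 (by omega) _ f1 (by simp only [flipMon]; omega) (by simp only [flipMon]; omega)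
    (by simp only [flipMon]; omega)
  omega

lemma lexStep_low {a b c e q w g : ℕ} (ha : e + 2 ≤ a) (hab : a ≤ b) (hbc : b ≤ c)
    (hg : q + g = w) (h : q ≤ g.choose 2) : LexStep a b c e q w := by
  have h0 : sq b c 0 = 0 := by simp [sq]
  refine lexStep_of ?_ fun d hd hlt => Or.inl ?_
  · rw [show e + 1 - a = 0 by omega, show e + 2 - a = 0 by omega]; omega
  rw [show e + 1 - a = 0 by omega, h0, sq_choose hbc (by omega)] at hlt
  rw [show e + 1 - a = 0 by omega, show e + 2 - a = 0 by omega, h0]
  have hdg : d + 2 ≤ g := by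
    by_contra hc
    have := Nat.choose_le_choose 2 (show g ≤ d + 1 by omega)
    omega
  have := diag_le_succ b c d
  split_ifs <;> omega

lemma lexStep_flat {a b c e q w : ℕ} (ha : 1 ≤ a) (he : a + b ≤ e + 2) (hec : e + 2 ≤ c)
    (h : q ≤ w) : LexStep a b c e q w := by
  rcases Nat.eq_zero_or_pos b with rfl | hb
  · intro m hm
    rw [mem_mons] at hm
    omega
  have hk : e + 2 - a = e + 1 - a + 1 := by omega
  refine lexStep_of ?_ fun d hd hlt => ?_
  · rw [hk, sq_succ]; omega
  rw [hk, sq_succ, diag_eq_left (b := b) (c := c) (d := e + 1 - a) (by omega) (by omega)]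
  left
  have h1 := diag_le_left b c d
  have h2 := diag_le_succ b c d
  split_ifs <;> omega

/-- The middle degrees; `T = e + 2 - a`. -/
lemma lexStep_mid {a b c e T q w g : ℕ} (ha : 2 ≤ a) (hab : a ≤ b) (hbc : b ≤ c)
    (hT : T + a = e + 2) (hT1 : 1 ≤ T) (hTb : T ≤ b) (heD : e + 3 ≤ b + c)
    (hq : q ≤ (mons a b c e).card) (hw : w ≤ (mons a b c (e + 1)).card)
    (hg : (T + 1).choose 2 + w = T.choose 2 + q + g)
    (h : b ≤ g ∨ T.choose 2 + q ≤ g.choose 2 ∨ b * c ≤ (T + 1).choose 2 + w + g.choose 2) :
    LexStep a b c e q w := by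
  have hk2 : sq b c (e + 2 - a) = (T + 1).choose 2 := by
    rw [show e + 2 - a = T by omega, sq_choose hbc hTb]
  have hk1 : sq b c (e + 1 - a) = T.choose 2 := by
    rw [show e + 1 - a = T - 1 by omega, sq_choose hbc (by omega), show T - 1 + 1 = T by omega]
  refine lexStep_of (by omega) fun d hd hlt => ?_
  rw [hk1] at hlt ⊢
  rw [hk2]
  have h1 := diag_le_left b c d
  have h2 := diag_le_succ b c d
  rcases Nat.lt_or_ge g b with hgb | hgb
  swap
  · left; split_ifs <;> omega
  rcases h with h | h | h
  · omega
  · left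
    have hdg : d + 2 ≤ g := by
      by_contra hc
      rcases Nat.eq_zero_or_pos g with rfl | hgpos
      · simp only [Nat.choose_zero_succ] at h
        omega
      have h3 := sq_mono b c (show g - 1 ≤ d by omega)
      rw [sq_choose hbc (show g - 1 ≤ b by omega), show g - 1 + 1 = g by omega] at h3
      omega
    split_ifs <;> omega
  · rcases Nat.lt_or_ge (d + 1) (b + c - g) with h4 | h4
    · right
      rcases Nat.eq_zero_or_pos g with rfl | hgpos
      · have := sq_le_mul b c (d + 2)
        simp only [Nat.choose_zero_succ] at h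
        omega
      have h5 := sq_symm (b := b) (c := c) (k := g - 1) (by omega)
      rw [sq_choose hbc (show g - 1 ≤ b by omega), show g - 1 + 1 = g by omega,
        show b + c - 1 - (g - 1) = b + c - g by omega] at h5
      have h6 := sq_mono b c (show d + 2 ≤ b + c - g by omega)
      omega
    · left
      have := diag_le_compl b c d
      split_ifs <;> omega

end Vale.P200
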