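import Vale.Agent.P200.Plateau

/-!
P200: the layer chain, and the small bound when `t` is injective on it.
-/

namespace Vale.P200

open Module

variable {K F : Type*} [Field K] [CommRing F] [Algebra K F]

lemma choose2_add {g g' x : ℕ} (h : g' < g) (hx : x < g) :
    g'.choose 2 + x ≤ g.choose 2 := by
  obtain ⟨m, rfl⟩ : ∃ m, g = m + 1 := ⟨g - 1, by omega⟩
  have h1 := Nat.choose_le_choose 2 (Nat.le_of_lt_succ h)
  rw [show (2 : ℕ) = 1 + 1 from rfl, Nat.choose_succ_succ', Nat.choose_one_right]
  simp only [show (1 : ℕ) + 1 = 2 from rfl]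
  omega

/-- A valid pair of subspaces in degrees `e`, `e + 1` over the element `φ`. -/
structure Pair (y z φ : F) (e T : ℕ) (V W : Submodule K F) : Prop where
  hV : V ≤ Gp y z (e + 1)
  hW : W ≤ Gp y z (e + 2)
  le : V ≤ W
  hy : sm y V ≤ W
  hz : sm z V ≤ W
  pV : sm φ (Gp y z (T - 1)) ≤ V
  pW : sm φ (Gp y z T) ≤ W

lemma Pair.ht {y z φ : F} {e T : ℕ} {V W : Submodule K F} (P : Pair y z φ e T V W) (s : K) :
    sm (y + s • z) V ≤ W := by
  rintro _ ⟨u, hu, rfl⟩
  simp only [LinearMap.mulLeft_apply, add_mul, smul_mul_assoc]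
  exact add_mem (mul_mem_of_sm_le P.hy hu) (W.smul_mem _ (mul_mem_of_sm_le P.hz hu))

/-- `W ⊇ V ⊇ {u ∈ V : tu, zu ∈ V} ⊇ ⋯`. -/
noncomputable def chain (t z : F) (V W : Submodule K F) : ℕ → Submodule K F
  | 0 => W
  | 1 => V
  | n + 2 => chain t z V W (n + 1) ⊓ (chain t z V W (n + 1)).comap (LinearMap.mulLeft K t)
      ⊓ (chain t z V W (n + 1)).comap (LinearMap.mulLeft K z)

variable {y z φ : F} {b D a e T : ℕ} {lam : F →ₗ[K] K} {V W : Submodule K F}

/-- If `t` is injective from the first layer, then `V` is small. -/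
theorem small_of_inj [FiniteDimensional K F] (H : IsFrame y z b D lam) (hφ : IsUnit φ)
    (hab : a ≤ b) (hT : T + a = e + 2) (heD : e + 1 ≤ D) (P : Pair y z φ e T V W) (s : K)
    (hinj : ∀ u ∈ V, (y + s • z) * u ∈ V → z * u ∈ V) {g : ℕ}
    (hg : finrank K W = finrank K V + g) (hgb : g < b) : finrank K V ≤ g.choose 2 := by
  set t := y + s • z with ht_def
  set C := chain t z V W with hC_def
  have hC2 : ∀ n, C (n + 2) = C (n + 1) ⊓ (C (n + 1)).comap (LinearMap.mulLeft K t)
      ⊓ (C (n + 1)).comap (LinearMap.mulLeft K z) := fun n => rfl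
  have hle : ∀ i, C (i + 1) ≤ C i := by
    rintro (_ | i)
    · exact P.le
    · exact (hC2 i).le.trans (inf_le_left.trans inf_le_left)
  have hmt : ∀ i, sm t (C (i + 1)) ≤ C i := by
    rintro (_ | i)
    · exact P.ht s
    · rintro _ ⟨u, hu, rfl⟩; exact ((hC2 i).le hu).1.2
  have hmz : ∀ i, sm z (C (i + 1)) ≤ C i := by
    rintro (_ | i)
    · exact P.hz
    · rintro _ ⟨u, hu, rfl⟩; exact ((hC2 i).le hu).2
  have hmy : ∀ i, ∀ u ∈ C (i + 1), y * u ∈ C i := by
    intro i u hu
    have : y * u = t * u - s • (z * u) := by rw [ht_def, add_mul, smul_mul_assoc]; abel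
    rw [this]
    exact sub_mem (mul_mem_of_sm_le (hmt i) hu) ((C i).smul_mem _ (mul_mem_of_sm_le (hmz i) hu))
  have hinjC : ∀ i, C (i + 1) ⊓ (C (i + 1)).comap (LinearMap.mulLeft K t) = C (i + 2) := by
    intro i
    refine le_antisymm ?_ ((hC2 i).le.trans inf_le_left)
    induction i with
    | zero => exact fun u hu => (hC2 0).ge ⟨hu, hinj u hu.1 hu.2⟩
    | succ i ih =>
      intro u hu
      refine (hC2 (i + 1)).ge ⟨hu, ?_⟩
      have h1 : z * u ∈ C (i + 1) := mul_mem_of_sm_le (hmz (i + 1)) hu.1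
      have h2 : t * (z * u) ∈ C (i + 1) := by
        rw [mul_left_comm]; exact mul_mem_of_sm_le (hmz (i + 1)) hu.2
      exact ih ⟨h1, h2⟩
  have hG : ∀ i, C i ≤ Gp y z (e + 2 - i) := by
    intro i
    induction i with
    | zero => exact P.hW
    | succ i ih =>
      rcases Nat.eq_zero_or_pos i with rfl | hi
      · exact P.hV
      intro u hu
      have hu' : u ∈ Gp y z (e + 2 - i) := ih (hle i hu)
      rcases Nat.lt_or_ge (e + 1) i with hlt | hge
      · rwa [show e + 2 - (i + 1) = e + 2 - i by omega]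
      · obtain ⟨k, hk⟩ : ∃ k, e + 2 - i = k + 1 := ⟨e + 1 - i, by omega⟩
        rw [hk] at hu' ih
        rw [show e + 2 - (i + 1) = k by omega]
        exact H.socle k (by omega) u hu' (ih (hmy i u hu)) (ih (mul_mem_of_sm_le (hmz i) hu))
  have hphi : ∀ i, sm φ (Gp y z (T - i)) ≤ C i := by
    intro i
    induction i with
    | zero => exact P.pW
    | succ i ih =>
      rcases Nat.eq_zero_or_pos i with rfl | hi
      · exact P.pV
      rintro _ ⟨x, hx, rfl⟩
      rcases Nat.lt_or_ge i T with hlt | hge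
      · have e1 : T - i = T - (i + 1) + 1 := by omega
        obtain ⟨j, rfl⟩ : ∃ j, i = j + 1 := ⟨i - 1, by omega⟩
        refine (hC2 j).ge ⟨⟨ih ⟨x, Gp_mono (by omega) hx, rfl⟩, ?_⟩, ?_⟩
        · refine ih ⟨t * x, e1 ▸ t_mul_Gp s hx, ?_⟩
          simp only [LinearMap.mulLeft_apply]; ring
        · refine ih ⟨z * x, e1 ▸ z_mul_Gp hx, ?_⟩
          simp only [LinearMap.mulLeft_apply]; ring
      · rw [show T - (i + 1) = 0 by omega, Gp_zero] at hx
        simp only [SetLike.mem_coe, Submodule.mem_bot] at hx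
        simp [hx]
  have hmono : ∀ i, finrank K (C (i + 1)) ≤ finrank K (C i) := fun i => Submodule.finrank_mono (hle i)
  have hrank : ∀ i, finrank K (C (i + 1)) + finrank K (C (i + 1))
      ≤ finrank K (C i) + finrank K (C (i + 2)) := by
    intro i
    have h1 := finrank_rk t (C (i + 1)) (C (i + 1))
    rw [hinjC i] at h1
    have h2 := Submodule.finrank_mono (sup_le (hle i) (hmt i))
    omega
  have main : ∀ n i, e + 2 - i = n → finrank K (C i) < finrank K (C (i + 1)) + b →
      finrank K (C (i + 1)) ≤ (finrank K (C i) - finrank K (C (i + 1))).choose 2 := by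
    intro n
    induction n with
    | zero =>
      intro i hi _
      have h0 : C (i + 1) = ⊥ := by
        rw [eq_bot_iff, ← Gp_zero (y := y) (z := z)]
        exact (hG (i + 1)).trans (Gp_mono (by omega))
      rw [h0, finrank_bot]
      exact Nat.zero_le _
    | succ n ih =>
      intro i hi hb
      have h1 := hmono i
      have h2 := hmono (i + 1)
      have h22 : finrank K (C (i + 1 + 1)) = finrank K (C (i + 2)) := rfl
      have h3 := hrank i
      have h4 := ih (i + 1) (by omega) (by omega)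
      rcases (hrank i).lt_or_eq with hlt | heq
      · have h5 := choose2_add (g := finrank K (C i) - finrank K (C (i + 1)))
          (g' := finrank K (C (i + 1)) - finrank K (C (i + 1 + 1)))
          (x := finrank K (C (i + 1)) - finrank K (C (i + 1 + 1))) (by omega) (by omega)
        omega
      · have h5 := plateau H.free s C hφ hT hab hle hmt hmz hinjC hG hphi i heq hb
        have h6 : finrank K (C (i + 1)) - finrank K (C (i + 1 + 1)) = 0 := by omega
        rw [h6] at h4
        rw [Nat.choose_zero_succ] at h4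
        omega
  have hb : finrank K W < finrank K V + b := by omega
  have hres : finrank K V ≤ (finrank K W - finrank K V).choose 2 := main (e + 2) 0 rfl hb
  rwa [hg, Nat.add_sub_cancel_left] at hres

end Vale.P200
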