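import Vale.Agent.P200.Reduction

/-!
P200: dehomogenization of forms in three variables with respect to the first variable.
-/

namespace Vale.P200

open Module MvPolynomial

variable {K : Type*} [Field K]


lemma degree3 (d : Fin 3 →₀ ℕ) : d.degree = d 0 + d 1 + d 2 := by
  simp [Finsupp.degree_eq_sum, Fin.sum_univ_three]

lemma dehom_monomial (d : Fin 3 →₀ ℕ) (r : K) :
    dehom (monomial d r) = monomial (Finsupp.tail d) r := by
  rw [dehom, aeval_monomial, monomial_eq, Finsupp.prod_fintype _ _ (fun i => pow_zero _),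
    Finsupp.prod_fintype _ _ (fun i => pow_zero _), MvPolynomial.algebraMap_eq]
  simp [Fin.prod_univ_three, Fin.prod_univ_two, Finsupp.tail_apply]

lemma atInfty_monomial (d : Fin 3 →₀ ℕ) (r : K) :
    atInfty (monomial d r) = if d 0 = 0 then monomial (Finsupp.tail d) r else 0 := by
  rw [atInfty, aeval_monomial, monomial_eq, Finsupp.prod_fintype _ _ (fun i => pow_zero _),
    Finsupp.prod_fintype _ _ (fun i => pow_zero _), MvPolynomial.algebraMap_eq]
  split_ifs with h <;> simp [Fin.prod_univ_three, Fin.prod_univ_two, Finsupp.tail_apply, h]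

/-- The exponents of a form of degree `n`. -/
lemma degree_of_mem {u : (MvPolynomial (Fin 3) K)} {n : ℕ} (hu : u.IsHomogeneous n) {d : Fin 3 →₀ ℕ}
    (hd : d ∈ u.support) : d 0 + d 1 + d 2 = n := by
  by_contra h
  exact mem_support_iff.1 hd (hu.coeff_eq_zero (by rwa [degree3]))

lemma dehom_mem_plt {u : (MvPolynomial (Fin 3) K)} {n : ℕ} (hu : u.IsHomogeneous n) : dehom u ∈ plt K (n + 1) := by
  rw [u.as_sum, map_sum]
  refine Submodule.sum_mem _ fun d hd => ?_
  have := degree_of_mem hu hd
  rw [dehom_monomial, plt, monomial_mem_restrictSupport]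
  left
  change Finsupp.tail d 0 + Finsupp.tail d 1 < n + 1
  rw [Finsupp.tail_apply, Finsupp.tail_apply]
  change d 1 + d 2 < n + 1
  omega

lemma atInfty_isHomogeneous {u : (MvPolynomial (Fin 3) K)} {n : ℕ} (hu : u.IsHomogeneous n) :
    (atInfty u).IsHomogeneous n := by
  rw [u.as_sum, map_sum]
  refine IsHomogeneous.sum _ _ _ fun d hd => ?_
  have := degree_of_mem hu hd
  rw [atInfty_monomial]
  split_ifs with h
  · refine isHomogeneous_monomial _ ?_
    rw [Finsupp.degree_eq_sum, Fin.sum_univ_two, Finsupp.tail_apply, Finsupp.tail_apply]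
    change d 1 + d 2 = n
    omega
  · exact isHomogeneous_zero _ _ _

lemma dehom_sub_atInfty {u : (MvPolynomial (Fin 3) K)} {n : ℕ} (hu : u.IsHomogeneous n) :
    dehom u - atInfty u ∈ plt K n := by
  rw [u.as_sum, map_sum, map_sum, ← Finset.sum_sub_distrib]
  refine Submodule.sum_mem _ fun d hd => ?_
  have := degree_of_mem hu hd
  rw [dehom_monomial, atInfty_monomial]
  split_ifs with h
  · simp
  · rw [sub_zero, plt, monomial_mem_restrictSupport]
    left
    change Finsupp.tail d 0 + Finsupp.tail d 1 < n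
    rw [Finsupp.tail_apply, Finsupp.tail_apply]
    change d 1 + d 2 < n
    omega

lemma dehom_eq_zero {u : (MvPolynomial (Fin 3) K)} {n : ℕ} (hu : u.IsHomogeneous n) (h : dehom u = 0) : u = 0 := by
  classical
  rw [← MvPolynomial.support_eq_empty, Finset.eq_empty_iff_forall_notMem]
  intro d hd
  have h1 : coeff (Finsupp.tail d) (dehom u) = coeff d u := by
    conv_lhs => rw [u.as_sum, map_sum, coeff_sum]
    rw [Finset.sum_eq_single d]
    · rw [dehom_monomial, coeff_monomial, if_pos rfl]
    · intro x hx hne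
      rw [dehom_monomial, coeff_monomial, if_neg]
      intro heq
      have e1 : x 1 = d 1 := by
        have := DFunLike.congr_fun heq 0
        simpa [Finsupp.tail_apply] using this
      have e2 : x 2 = d 2 := by
        have := DFunLike.congr_fun heq 1
        simpa [Finsupp.tail_apply] using this
      have := degree_of_mem hu hd
      have := degree_of_mem hu hx
      refine hne (Finsupp.ext fun i => ?_)
      fin_cases i <;> simp <;> omega
    · intro hn; exact absurd hd hn
  rw [h, coeff_zero] at h1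
  exact mem_support_iff.1 hd h1.symm

lemma dehom_inj {u v : (MvPolynomial (Fin 3) K)} {n : ℕ} (hu : u.IsHomogeneous n) (hv : v.IsHomogeneous n)
    (h : dehom u = dehom v) : u = v :=
  sub_eq_zero.1 (dehom_eq_zero (hu.sub hv) (by rw [map_sub, h, sub_self]))

/-- The form of degree `n` that dehomogenizes to `p`. -/
noncomputable def homog (n : ℕ) (p : (MvPolynomial (Fin 2) K)) : (MvPolynomial (Fin 3) K) :=
  ∑ d ∈ p.support, monomial (Finsupp.cons (n - (d 0 + d 1)) d) (coeff d p)

lemma dehom_homog (n : ℕ) (p : (MvPolynomial (Fin 2) K)) : dehom (homog n p) = p := by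
  rw [homog, map_sum]
  conv_rhs => rw [p.as_sum]
  refine Finset.sum_congr rfl fun d _ => ?_
  rw [dehom_monomial, Finsupp.tail_cons]

lemma homog_isHomogeneous {n : ℕ} {p : (MvPolynomial (Fin 2) K)} (hp : p ∈ plt K (n + 1)) :
    (homog n p).IsHomogeneous n := by
  refine IsHomogeneous.sum _ _ _ fun d hd => isHomogeneous_monomial _ ?_
  have := mem_plt.1 hp d hd
  rw [degree3, Finsupp.cons_zero, show (1 : Fin 3) = (0 : Fin 2).succ from rfl,
    show (2 : Fin 3) = (1 : Fin 2).succ from rfl, Finsupp.cons_succ, Finsupp.cons_succ]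
  omega

lemma mem_plt_totalDegree (p : (MvPolynomial (Fin 2) K)) {k : ℕ} (h : p.totalDegree < k) : p ∈ plt K k := by
  refine mem_plt.2 fun d hd => ?_
  have := le_totalDegree hd
  rw [Finsupp.sum_fintype _ _ (fun _ => rfl), Fin.sum_univ_two] at this
  omega

/-- A form vanishing in `K[y,z]/(f₂,f₃)` after dehomogenizing lies in `(f₂,f₃)`. -/
lemma mem_span_of_dehom {f₂ f₃ : (MvPolynomial (Fin 3) K)} {b c : ℕ} (h₂ : f₂.IsHomogeneous b) (h₃ : f₃.IsHomogeneous c)
    (H2 : ∀ p, X 0 * p ∈ Ideal.span {f₂, f₃} → p ∈ Ideal.span {f₂, f₃}) {u : (MvPolynomial (Fin 3) K)} {n : ℕ}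
    (hu : u.IsHomogeneous n) (h : dehom u ∈ Ideal.span {dehom f₂, dehom f₃}) :
    u ∈ Ideal.span {f₂, f₃} := by
  obtain ⟨A, B, hAB⟩ := Ideal.mem_span_pair.1 h
  set N := A.totalDegree + B.totalDegree + b + c with hN
  have hA := homog_isHomogeneous (n := N + n - b) (mem_plt_totalDegree A (by omega))
  have hB := homog_isHomogeneous (n := N + n - c) (mem_plt_totalDegree B (by omega))
  have e : X 0 ^ N * u = homog (N + n - b) A * f₂ + homog (N + n - c) B * f₃ := by
    refine dehom_inj (n := N + n) ((isHomogeneous_X_pow _ _).mul hu) (IsHomogeneous.add ?_ ?_) ?_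
    · have := hA.mul h₂
      rwa [show N + n - b + b = N + n by omega] at this
    · have := hB.mul h₃
      rwa [show N + n - c + c = N + n by omega] at this
    · rw [map_mul, map_add, map_mul, map_mul, map_pow, dehom_homog, dehom_homog, hAB]
      simp [dehom]
  have : ∀ k (v : (MvPolynomial (Fin 3) K)), X 0 ^ k * v ∈ Ideal.span {f₂, f₃} → v ∈ Ideal.span {f₂, f₃} := by
    intro k
    induction k with
    | zero => intro v hv; simpa using hv
    | succ k ih =>
      intro v hv
      rw [pow_succ, mul_assoc] at hv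
      exact H2 v (ih _ hv)
  refine this N u ?_
  rw [e]
  exact Ideal.add_mem _ (Ideal.mul_mem_left _ _ (Ideal.subset_span (by simp)))
    (Ideal.mul_mem_left _ _ (Ideal.subset_span (by simp)))

lemma part_le (I : Ideal (MvPolynomial (Fin 3) K)) (e : ℕ) : part I e ≤ homogeneousSubmodule (Fin 3) K e := inf_le_right

lemma mem_part {I : Ideal (MvPolynomial (Fin 3) K)} {e : ℕ} {u : (MvPolynomial (Fin 3) K)} : u ∈ part I e ↔ u ∈ I ∧ u.IsHomogeneous e := Iff.rfl

instance finite_homogeneousSubmodule (e : ℕ) :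
    FiniteDimensional K ↥(homogeneousSubmodule (Fin 3) K e) :=
  Module.Finite.iff_fg.2 (homogeneousSubmodule_fg (Fin 3) K e)

instance finite_part (I : Ideal (MvPolynomial (Fin 3) K)) (e : ℕ) : FiniteDimensional K ↥(part I e) :=
  Submodule.finiteDimensional_of_le (part_le I e)

lemma map_dehom (e : ℕ) :
    (homogeneousSubmodule (Fin 3) K e).map dehom.toLinearMap = plt K (e + 1) := by
  refine le_antisymm ?_ fun p hp => ⟨homog e p, homog_isHomogeneous hp, dehom_homog e p⟩
  rintro _ ⟨u, hu, rfl⟩
  exact dehom_mem_plt hu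

end Vale.P200
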