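import Vale.Agent.P200.Base

/-!
P200: permutation of a homogeneous regular sequence, generic coordinates, base change.
-/

namespace Vale.P200

open Module MvPolynomial

universe u

variable {K : Type u} [Field K]

/-- Set `X₀ = 0`. -/
noncomputable def atInfty : MvPolynomial (Fin 3) K →ₐ[K] MvPolynomial (Fin 2) K :=
  aeval ![0, X 0, X 1]

/-- Set `X₀ = 1`. -/
noncomputable def dehom : MvPolynomial (Fin 3) K →ₐ[K] MvPolynomial (Fin 2) K :=
  aeval ![1, X 0, X 1]

/-- The regular-sequence condition, unfolded. -/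
def Reg3 (f₁ f₂ f₃ : (MvPolynomial (Fin 3) K)) : Prop :=
  f₁ ≠ 0 ∧ (∀ p, f₂ * p ∈ Ideal.span {f₁} → p ∈ Ideal.span {f₁}) ∧
    ∀ p, f₃ * p ∈ Ideal.span {f₁, f₂} → p ∈ Ideal.span {f₁, f₂}

/-- The degree-`d` part of an ideal, as a subspace. -/
noncomputable def part (I : Ideal (MvPolynomial (Fin 3) K)) (d : ℕ) : Submodule K (MvPolynomial (Fin 3) K) :=
  I.restrictScalars K ⊓ homogeneousSubmodule (Fin 3) K d

lemma reg3_of_isRegular {f₁ f₂ f₃ : (MvPolynomial (Fin 3) K)}
    (h : RingTheory.Sequence.IsRegular (MvPolynomial (Fin 3) K) [f₁, f₂, f₃]) : Reg3 f₁ f₂ f₃ := by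
  have h0 := h.toIsWeaklyRegular.regular_mod_prev 0 (by simp)
  have h1 := h.toIsWeaklyRegular.regular_mod_prev 1 (by simp)
  have h2 := h.toIsWeaklyRegular.regular_mod_prev 2 (by simp)
  rw [isSMulRegular_quotient_iff_mem_of_smul_mem] at h0 h1 h2
  simp only [List.take_zero, List.take_succ_cons, Ideal.ofList_cons, Ideal.ofList_nil,
    sup_bot_eq, Submodule.bot_smul, smul_eq_mul, Ideal.mul_top, ← Ideal.span_union,
    Set.singleton_union, List.getElem_cons_zero, List.getElem_cons_succ] at h0 h1 h2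
  refine ⟨fun h => ?_, h1, h2⟩
  subst h
  simpa using h0 1 (by simp)

section Algebra

variable {σ : Type*} {R : Type*} [CommRing R]

/-- Component of a product with a homogeneous factor. -/
lemma hcomp_mul {k d : ℕ} {f : MvPolynomial σ R} (hf : f.IsHomogeneous k) (h : MvPolynomial σ R) :
    homogeneousComponent d (h * f) =
      if k ≤ d then homogeneousComponent (d - k) h * f else 0 := by
  conv_lhs => rw [← sum_homogeneousComponent h, Finset.sum_mul, map_sum]
  rw [Finset.sum_congr rfl fun i _ => homogeneousComponent_of_mem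
    (n := i + k) ((homogeneousComponent_isHomogeneous i h).mul hf)]
  split_ifs with hk
  · have hiff : ∀ i, (d = i + k) ↔ (i = d - k) := fun i => by omega
    simp only [hiff, Finset.sum_ite_eq', Finset.mem_range]
    split_ifs with h'
    · rfl
    · rw [homogeneousComponent_eq_zero _ _ (by omega), zero_mul]
  · refine Finset.sum_eq_zero fun i _ => if_neg (by omega)

lemma hcomp_mul_add {k d : ℕ} {f : MvPolynomial σ R} (hf : f.IsHomogeneous k)
    (h : MvPolynomial σ R) :
    homogeneousComponent (d + k) (h * f) = homogeneousComponent d h * f := by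
  rw [hcomp_mul hf, if_pos (by omega), Nat.add_sub_cancel]

/-- An ideal generated by two forms contains the components of its elements. -/
lemma hcomp_mem_pair {a b d : ℕ} {f g p : MvPolynomial σ R} (hf : f.IsHomogeneous a)
    (hg : g.IsHomogeneous b) (hp : p ∈ Ideal.span {f, g}) :
    homogeneousComponent d p ∈ Ideal.span {f, g} := by
  obtain ⟨u, v, rfl⟩ := Ideal.mem_span_pair.1 hp
  rw [map_add, hcomp_mul hf, hcomp_mul hg, Ideal.mem_span_pair]
  refine ⟨if a ≤ d then homogeneousComponent (d - a) u else 0,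
    if b ≤ d then homogeneousComponent (d - b) v else 0, ?_⟩
  split_ifs <;> simp

lemma mem_of_hcomp_mem {I : Ideal (MvPolynomial σ R)} {p : MvPolynomial σ R}
    (h : ∀ d, homogeneousComponent d p ∈ I) : p ∈ I := by
  rw [← sum_homogeneousComponent p]
  exact I.sum_mem fun d _ => h d

end Algebra

section Perm

variable {a b c : ℕ} {f g h : MvPolynomial (Fin 3) K}

lemma isRelPrime_of_nzd (hf0 : f ≠ 0) (hreg : ∀ p, g * p ∈ Ideal.span {f} → p ∈ Ideal.span {f}) :
    IsRelPrime f g := by
  rintro d ⟨u, hu⟩ ⟨v, hv⟩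
  have h1 : u ∈ Ideal.span {f} := by
    refine hreg u (Ideal.mem_span_singleton'.2 ⟨v, ?_⟩)
    rw [hu, hv]; ring
  obtain ⟨w, hw⟩ := Ideal.mem_span_singleton'.1 h1
  have hu0 : u ≠ 0 := fun hh => hf0 (by rw [hu, hh, mul_zero])
  refine IsUnit.of_mul_eq_one w (mul_left_cancel₀ hu0 ?_)
  rw [mul_one]
  nth_rw 2 [← hw]
  rw [hu]; ring

lemma nzd_of_isRelPrime (hrp : IsRelPrime f g) :
    ∀ p, g * p ∈ Ideal.span {f} → p ∈ Ideal.span {f} := fun p hp => by
  rw [Ideal.mem_span_singleton] at hp ⊢
  exact hrp.dvd_of_dvd_mul_left hp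

/-- Graded Nakayama: the last two forms of a regular sequence commute. -/
lemma reg_swap23 (hb : 1 ≤ b) (hf : f.IsHomogeneous a) (hg : g.IsHomogeneous b)
    (hh : h.IsHomogeneous c) (H : Reg3 f g h) : Reg3 f h g := by
  obtain ⟨hf0, h2, h3⟩ := H
  have key : ∀ p, h * p ∈ Ideal.span {f} → p ∈ Ideal.span {f} := by
    suffices ∀ d p, p.IsHomogeneous d → h * p ∈ Ideal.span {f} → p ∈ Ideal.span {f} by
      intro p hp
      refine mem_of_hcomp_mem fun d => this d _ (homogeneousComponent_isHomogeneous d p) ?_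
      obtain ⟨w, hw⟩ := Ideal.mem_span_singleton'.1 hp
      rw [mul_comm h, ← hcomp_mul_add hh, mul_comm p, ← hw, hcomp_mul hf]
      split_ifs
      · exact Ideal.mul_mem_left _ _ (Ideal.subset_span rfl)
      · exact zero_mem _
    intro d
    induction d using Nat.strong_induction_on with
    | h d ih =>
      intro p hp hmem
      have h1 : p ∈ Ideal.span {f, g} :=
        h3 p (Ideal.span_mono (Set.singleton_subset_iff.2 (Set.mem_insert _ _)) hmem)
      obtain ⟨u, v, huv⟩ := Ideal.mem_span_pair.1 h1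
      have hpe := congrArg (homogeneousComponent d) huv
      rw [homogeneousComponent_eq_self hp, map_add, hcomp_mul hf, hcomp_mul hg] at hpe
      have huf : (if a ≤ d then homogeneousComponent (d - a) u * f else 0) ∈ Ideal.span {f} := by
        split_ifs
        · exact Ideal.mul_mem_left _ _ (Ideal.subset_span rfl)
        · exact zero_mem _
      by_cases hbd : b ≤ d
      · rw [if_pos hbd] at hpe
        have h4 : g * (h * homogeneousComponent (d - b) v) ∈ Ideal.span {f} := by
          have : g * (h * homogeneousComponent (d - b) v) =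
              h * p - h * (if a ≤ d then homogeneousComponent (d - a) u * f else 0) := by
            conv_rhs => rw [← hpe]
            ring
          rw [this]
          exact sub_mem hmem (Ideal.mul_mem_left _ _ huf)
        rw [← hpe]
        exact add_mem huf (Ideal.mul_mem_right _ _
          (ih _ (by omega) _ (homogeneousComponent_isHomogeneous _ _) (h2 _ h4)))
      · rw [if_neg hbd, add_zero] at hpe
        rwa [← hpe]
  refine ⟨hf0, key, fun p hp => ?_⟩
  obtain ⟨u, v, huv⟩ := Ideal.mem_span_pair.1 hp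
  have h4 : h * v ∈ Ideal.span {f, g} := by
    rw [show h * v = p * g - u * f by linear_combination huv]
    exact Ideal.mem_span_pair.2 ⟨-u, p, by ring⟩
  obtain ⟨s, t, hst⟩ := Ideal.mem_span_pair.1 (h3 v h4)
  have h5 : g * (p - t * h) ∈ Ideal.span {f} :=
    Ideal.mem_span_singleton'.2 ⟨u + s * h, by linear_combination huv + h * hst⟩
  obtain ⟨w, hw⟩ := Ideal.mem_span_singleton'.1 (h2 _ h5)
  exact Ideal.mem_span_pair.2 ⟨w, t, by linear_combination hw⟩

lemma reg_swap12 (hg0 : g ≠ 0) (H : Reg3 f g h) : Reg3 g f h :=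
  ⟨hg0, nzd_of_isRelPrime (isRelPrime_of_nzd H.1 H.2.1).symm, by
    rw [Set.pair_comm g f]; exact H.2.2⟩

lemma second_ne_zero (ha : 1 ≤ a) (hf : f.IsHomogeneous a) (H : Reg3 f g h) : g ≠ 0 := by
  rintro rfl
  have h1 := H.2.1 1 (by simp)
  rw [Ideal.mem_span_singleton] at h1
  have h2 := (isUnit_of_dvd_one h1).map (constantCoeff : (MvPolynomial (Fin 3) K) →+* K)
  rw [constantCoeff_eq, hf.coeff_eq_zero (by rw [map_zero]; omega)] at h2
  exact not_isUnit_zero h2

end Perm

section Generic

/-- The forms `X₀ + t X₁ + t² X₂`. -/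
noncomputable def lform (t : K) : (MvPolynomial (Fin 3) K) := X 0 + C t * X 1 + C (t ^ 2) * X 2

lemma X_mem_of_three {P : Ideal (MvPolynomial (Fin 3) K)} {r s t : K} (hrs : r ≠ s) (hrt : r ≠ t) (hst : s ≠ t)
    (hr : lform r ∈ P) (hs : lform s ∈ P) (ht : lform t ∈ P) (i : Fin 3) : X i ∈ P := by
  have hC : ∀ x : K, x ≠ 0 → ∀ q : (MvPolynomial (Fin 3) K), C x * q ∈ P → q ∈ P := fun x hx q hq => by
    have := P.mul_mem_left (C x⁻¹) hq
    rwa [← mul_assoc, ← C_mul, inv_mul_cancel₀ hx, C_1, one_mul] at this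
  have h1 : X 1 + C (r + s) * X 2 ∈ P := by
    refine hC (r - s) (sub_ne_zero.2 hrs) _ ?_
    rw [show C (r - s) * (X 1 + C (r + s) * X 2) = lform r - lform s by
      simp only [lform, map_sub, map_add, map_pow]; ring]
    exact sub_mem hr hs
  have h1' : X 1 + C (r + t) * X 2 ∈ P := by
    refine hC (r - t) (sub_ne_zero.2 hrt) _ ?_
    rw [show C (r - t) * (X 1 + C (r + t) * X 2) = lform r - lform t by
      simp only [lform, map_sub, map_add, map_pow]; ring]
    exact sub_mem hr ht
  have h2 : X 2 ∈ P := by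
    refine hC (s - t) (sub_ne_zero.2 hst) _ ?_
    rw [show C (s - t) * X 2 = (X 1 + C (r + s) * X 2) - (X 1 + C (r + t) * X 2 : (MvPolynomial (Fin 3) K)) by
      simp only [map_sub, map_add]; ring]
    exact sub_mem h1 h1'
  have h3 : X 1 ∈ P := by
    have := sub_mem h1 (P.mul_mem_left (C (r + s)) h2)
    simpa using this
  fin_cases i
  · have := sub_mem (sub_mem hr (P.mul_mem_left (C r) h3)) (P.mul_mem_left (C (r ^ 2)) h2)
    rw [show lform r - C r * X 1 - C (r ^ 2) * X 2 = (X 0 : MvPolynomial (Fin 3) K) by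
      simp only [lform]; ring] at this
    exact this
  · exact h3
  · exact h2

lemma mem_of_forall_X_mem {P : Ideal (MvPolynomial (Fin 3) K)} (hP : ∀ i, X i ∈ P) {f : (MvPolynomial (Fin 3) K)}
    (hf : constantCoeff f = 0) : f ∈ P := by
  have h : ∀ p : (MvPolynomial (Fin 3) K), p - C (constantCoeff p) ∈ P := by
    intro p
    induction p using MvPolynomial.induction_on with
    | C r => simp
    | add p q hp hq =>
      rw [map_add, map_add, add_sub_add_comm]
      exact add_mem hp hq
    | mul_X p i _ => simpa using P.mul_mem_left p (hP i)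
  simpa [hf] using h f

lemma finite_bad {J : Ideal (MvPolynomial (Fin 3) K)} {f : (MvPolynomial (Fin 3) K)} (hf : constantCoeff f = 0)
    (hreg : ∀ p, f * p ∈ J → p ∈ J) :
    {t : K | ¬ ∀ p, lform t * p ∈ J → p ∈ J}.Finite := by
  have hsub : {t : K | ¬ ∀ p, lform t * p ∈ J → p ∈ J} ⊆
      ⋃ P ∈ associatedPrimes (MvPolynomial (Fin 3) K) ((MvPolynomial (Fin 3) K) ⧸ J), {t | lform t ∈ P} := by
    intro t ht
    have h : lform t ∈ ({r : (MvPolynomial (Fin 3) K) | IsSMulRegular ((MvPolynomial (Fin 3) K) ⧸ J) r}ᶜ : Set (MvPolynomial (Fin 3) K)) := fun hr =>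
      ht fun p hp => (isSMulRegular_quotient_iff_mem_of_smul_mem _ _).1 hr p hp
    rw [← biUnion_associatedPrimes_eq_compl_regular] at h
    simpa only [Set.mem_iUnion, Set.mem_ofPred_eq, exists_prop, SetLike.mem_coe] using h
  refine (Set.Finite.biUnion (associatedPrimes.finite (MvPolynomial (Fin 3) K) ((MvPolynomial (Fin 3) K) ⧸ J)) fun P hP => ?_).subset hsub
  by_contra hinf
  obtain ⟨r, hr⟩ := Set.Infinite.nonempty hinf
  obtain ⟨s, hs, hsr⟩ := (Set.Infinite.sdiff hinf (Set.finite_singleton r)).nonempty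
  obtain ⟨u, hu, hur⟩ := (Set.Infinite.sdiff hinf (Set.toFinite {r, s})).nonempty
  simp only [Set.mem_singleton_iff, Set.mem_insert_iff, not_or] at hsr hur
  have hfP : f ∈ P :=
    mem_of_forall_X_mem (X_mem_of_three (Ne.symm hsr) (Ne.symm hur.1) (Ne.symm hur.2) hr hs hu) hf
  have h : f ∈ ({r : (MvPolynomial (Fin 3) K) | IsSMulRegular ((MvPolynomial (Fin 3) K) ⧸ J) r}ᶜ : Set (MvPolynomial (Fin 3) K)) := by
    rw [← biUnion_associatedPrimes_eq_compl_regular]
    exact Set.mem_biUnion hP hfP
  exact h ((isSMulRegular_quotient_iff_mem_of_smul_mem _ _).2 hreg)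

/-- The coordinate change carrying `lform t` to `X₀`, as an algebra endomorphism. -/
noncomputable def coordHom (t : K) : (MvPolynomial (Fin 3) K) →ₐ[K] (MvPolynomial (Fin 3) K) :=
  aeval ![X 0 - C t * X 1 - C (t ^ 2) * X 2, X 1, X 2]

noncomputable def coordInv (t : K) : (MvPolynomial (Fin 3) K) →ₐ[K] (MvPolynomial (Fin 3) K) := aeval ![lform t, X 1, X 2]

/-- The coordinate change carrying `lform t` to `X₀`. -/
noncomputable def coordEquiv (t : K) : (MvPolynomial (Fin 3) K) ≃ₐ[K] (MvPolynomial (Fin 3) K) :=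
  AlgEquiv.ofAlgHom (coordHom t) (coordInv t)
    (by apply MvPolynomial.algHom_ext; intro i; fin_cases i <;> simp [coordHom, coordInv, lform] <;> ring)
    (by apply MvPolynomial.algHom_ext; intro i; fin_cases i <;> simp [coordHom, coordInv, lform] <;> ring)

lemma coord_lform (t : K) : coordEquiv t (lform t) = X 0 := by
  simp [coordEquiv, coordHom, lform]
  ring

lemma coord_homogeneous (t : K) (d : ℕ) (p : (MvPolynomial (Fin 3) K)) :
    (coordEquiv t p).IsHomogeneous d ↔ p.IsHomogeneous d := by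
  have h1 : ∀ q : (MvPolynomial (Fin 3) K), q.IsHomogeneous d → (coordHom t q).IsHomogeneous d := fun q hq => by
    have := hq.aeval (m := d) (![X 0 - C t * X 1 - C (t ^ 2) * X 2, X 1, X 2] : Fin 3 → MvPolynomial (Fin 3) K) (n := 1) (by
      intro i; fin_cases i
      · exact ((isHomogeneous_X K 0).sub (isHomogeneous_C_mul_X t 1)).sub
          (isHomogeneous_C_mul_X (t ^ 2) 2)
      · exact isHomogeneous_X K 1
      · exact isHomogeneous_X K 2)
    rw [one_mul] at this
    unfold coordHom
    exact this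
  have h2 : ∀ q : (MvPolynomial (Fin 3) K), q.IsHomogeneous d → (coordInv t q).IsHomogeneous d := fun q hq => by
    have := hq.aeval (m := d) (![lform t, X 1, X 2] : Fin 3 → MvPolynomial (Fin 3) K) (n := 1) (by
      intro i; fin_cases i
      · exact ((isHomogeneous_X K 0).add (isHomogeneous_C_mul_X t 1)).add
          (isHomogeneous_C_mul_X (t ^ 2) 2)
      · exact isHomogeneous_X K 1
      · exact isHomogeneous_X K 2)
    rw [one_mul] at this
    unfold coordInv
    exact this
  refine ⟨fun h => ?_, h1 p⟩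
  have := h2 _ h
  rwa [show coordInv t (coordEquiv t p) = p from (coordEquiv t).symm_apply_apply p] at this

/-- Set `X₀` back in: `yz ↦ X₁, X₂`. -/
noncomputable def lift12 : MvPolynomial (Fin 2) K →ₐ[K] (MvPolynomial (Fin 3) K) := aeval ![X 1, X 2]

lemma atInfty_lift12 (r : MvPolynomial (Fin 2) K) : atInfty (lift12 r) = r := by
  have h : (atInfty (K := K)).comp lift12 = AlgHom.id K _ := by
    apply MvPolynomial.algHom_ext; intro i; fin_cases i <;> simp [atInfty, lift12]
  exact DFunLike.congr_fun h r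

lemma X0_dvd_sub (p : (MvPolynomial (Fin 3) K)) : X 0 ∣ p - lift12 (atInfty p) := by
  rw [← Ideal.mem_span_singleton, ← Ideal.Quotient.mk_eq_mk_iff_sub_mem]
  have h : (Ideal.Quotient.mkₐ K (Ideal.span {(X 0 : (MvPolynomial (Fin 3) K))})).comp (lift12.comp atInfty) =
      Ideal.Quotient.mkₐ K (Ideal.span {(X 0 : (MvPolynomial (Fin 3) K))}) := by
    apply MvPolynomial.algHom_ext
    intro i
    fin_cases i
    · simp [atInfty, eq_comm, Ideal.Quotient.eq_zero_iff_mem]
    · simp [atInfty, lift12]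
    · simp [atInfty, lift12]
  exact (DFunLike.congr_fun h p).symm

lemma atInfty_X0 : atInfty (X 0 : (MvPolynomial (Fin 3) K)) = 0 := by simp [atInfty]

lemma transverse_at_infty {f g : (MvPolynomial (Fin 3) K)} (H : Reg3 (X 0) f g) :
    atInfty f ≠ 0 ∧ ∀ r, atInfty f ∣ r * atInfty g → atInfty f ∣ r := by
  constructor
  · intro h0
    have h1 : f * 1 ∈ Ideal.span {(X 0 : (MvPolynomial (Fin 3) K))} := by
      rw [mul_one, Ideal.mem_span_singleton]
      simpa [h0] using X0_dvd_sub f
    have h2 := Ideal.mem_span_singleton.1 (H.2.1 1 h1)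
    have h3 := (isUnit_of_dvd_one h2).map (constantCoeff : (MvPolynomial (Fin 3) K) →+* K)
    rw [constantCoeff_X] at h3
    exact not_isUnit_zero h3
  · rintro r ⟨w, hw⟩
    have h1 : g * lift12 r ∈ Ideal.span {(X 0 : (MvPolynomial (Fin 3) K)), f} := by
      have h0 : atInfty (g * lift12 r - lift12 w * f) = 0 := by
        rw [map_sub, map_mul, map_mul, atInfty_lift12, atInfty_lift12]
        linear_combination hw
      have hd := X0_dvd_sub (g * lift12 r - lift12 w * f)
      rw [h0, map_zero, sub_zero] at hd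
      obtain ⟨q, hq⟩ := hd
      exact Ideal.mem_span_pair.2 ⟨q, lift12 w, by linear_combination -hq⟩
    obtain ⟨u, v, huv⟩ := Ideal.mem_span_pair.1 (H.2.2 _ h1)
    refine ⟨atInfty v, ?_⟩
    have := congrArg atInfty huv
    rw [map_add, map_mul, map_mul, atInfty_X0, atInfty_lift12] at this
    linear_combination -this

lemma reg3_map (A : (MvPolynomial (Fin 3) K) ≃ₐ[K] (MvPolynomial (Fin 3) K)) {f g h : (MvPolynomial (Fin 3) K)} (H : Reg3 f g h) : Reg3 (A f) (A g) (A h) := by
  have hspan : ∀ (T : Set (MvPolynomial (Fin 3) K)) (p : (MvPolynomial (Fin 3) K)), p ∈ Ideal.span (A '' T) ↔ A.symm p ∈ Ideal.span T := by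
    intro T p
    rw [← Ideal.map_span]
    constructor
    · intro hp
      obtain ⟨q, hq, rfl⟩ := (Ideal.mem_map_iff_of_surjective A A.surjective).1 hp
      rwa [A.symm_apply_apply]
    · intro hp
      rw [← A.apply_symm_apply p]
      exact Ideal.mem_map_of_mem _ hp
  refine ⟨fun h0 => H.1 (A.injective (by rw [h0, map_zero])), fun p hp => ?_, fun p hp => ?_⟩
  · rw [← Set.image_singleton, hspan, map_mul, A.symm_apply_apply] at hp
    rw [← Set.image_singleton, hspan]
    exact H.2.1 _ hp
  · rw [← Set.image_pair, hspan, map_mul, A.symm_apply_apply] at hp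
    rw [← Set.image_pair, hspan]
    exact H.2.2 _ hp

end Generic

section BaseChange

variable {L : Type*} [Field L] [Algebra K L] {σ : Type*}

/-- A `K`-functional applied coefficientwise. -/
noncomputable def coeffMap (π : L →ₗ[K] K) (p : MvPolynomial σ L) : MvPolynomial σ K :=
  ∑ m ∈ p.support, monomial m (π (coeff m p))

lemma coeff_coeffMap (π : L →ₗ[K] K) (p : MvPolynomial σ L) (m : σ →₀ ℕ) :
    coeff m (coeffMap π p) = π (coeff m p) := by
  classical
  rw [coeffMap, coeff_sum]
  simp only [coeff_monomial, Finset.sum_ite_eq']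
  split_ifs with h
  · rfl
  · rw [notMem_support_iff.1 h, map_zero]

lemma coeffMap_add (π : L →ₗ[K] K) (p q : MvPolynomial σ L) :
    coeffMap π (p + q) = coeffMap π p + coeffMap π q := by
  ext m; simp [coeff_coeffMap]

lemma coeffMap_smul_map (π : L →ₗ[K] K) (r : L) (q : MvPolynomial σ K) :
    coeffMap π (r • map (algebraMap K L) q) = π r • q := by
  ext m
  rw [coeff_coeffMap, coeff_smul, coeff_smul, coeff_map, smul_eq_mul, mul_comm,
    ← Algebra.smul_def, map_smul, smul_eq_mul, smul_eq_mul, mul_comm]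

lemma coeffMap_map_mul (π : L →ₗ[K] K) (q : MvPolynomial σ K) (p : MvPolynomial σ L) :
    coeffMap π (map (algebraMap K L) q * p) = q * coeffMap π p := by
  classical
  ext m
  rw [coeff_coeffMap, coeff_mul, coeff_mul, map_sum]
  refine Finset.sum_congr rfl fun x _ => ?_
  rw [coeff_coeffMap, coeff_map, ← Algebra.smul_def, map_smul, smul_eq_mul]

/-- The `L`-span of the image of a `K`-subspace. -/
noncomputable def spanL (L : Type*) [Field L] [Algebra K L] (M : Submodule K (MvPolynomial σ K)) :
    Submodule L (MvPolynomial σ L) :=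
  Submodule.span L (map (algebraMap K L) '' M)

lemma mem_spanL_iff {M : Submodule K (MvPolynomial σ K)} {p : MvPolynomial σ L} :
    p ∈ spanL L M ↔ ∀ π : L →ₗ[K] K, coeffMap π p ∈ M := by
  classical
  constructor
  · intro hp π
    have hz : coeffMap π (0 : MvPolynomial σ L) = 0 := by ext m; simp [coeff_coeffMap]
    induction hp using Submodule.span_induction generalizing π with
    | mem x hx =>
      obtain ⟨q, hq, rfl⟩ := hx
      rw [← one_smul L (map (algebraMap K L) q), coeffMap_smul_map]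
      exact M.smul_mem _ hq
    | zero => rw [hz]; exact M.zero_mem
    | add x y _ _ hx hy =>
      rw [coeffMap_add]
      exact M.add_mem (hx π (by ext m; simp [coeff_coeffMap])) (hy π (by ext m; simp [coeff_coeffMap]))
    | smul r x _ hx =>
      have h : coeffMap π (r • x) = coeffMap (π.comp (LinearMap.mulLeft K r)) x := by
        ext m; simp [coeff_coeffMap]
      rw [h]
      exact hx _ (by ext m; simp [coeff_coeffMap])
  · intro h
    let e := Module.Free.chooseBasis K L
    set U := p.support.biUnion fun m => (e.repr (coeff m p)).support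
    have hp : p = ∑ k ∈ U, e k • map (algebraMap K L) (coeffMap (e.coord k) p) := by
      ext m
      simp only [coeff_sum, coeff_smul, coeff_map, coeff_coeffMap, Basis.coord_apply,
        smul_eq_mul]
      by_cases hm : m ∈ p.support
      · conv_lhs => rw [← e.linearCombination_repr (coeff m p)]
        rw [Finsupp.linearCombination_apply,
          Finsupp.sum_of_support_subset _ (Finset.subset_biUnion_of_mem
            (fun m => (e.repr (coeff m p)).support) hm) (fun i x => x • e i)
            (fun i _ => zero_smul K (e i))]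
        exact Finset.sum_congr rfl fun k _ => by rw [Algebra.smul_def, mul_comm]
      · rw [notMem_support_iff.1 hm]
        simp
    rw [hp]
    exact Submodule.sum_mem _ fun k _ => Submodule.smul_mem _ _
      (Submodule.subset_span ⟨_, h (e.coord k), rfl⟩)

lemma finrank_spanL (M : Submodule K (MvPolynomial σ K)) [Module.Finite K M] :
    finrank L ↥(spanL L M) = finrank K M := by
  classical
  let bs := Module.finBasis K M
  let v : Fin (finrank K M) → MvPolynomial σ L := fun i => map (algebraMap K L) (bs i : MvPolynomial σ K)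
  have hli : LinearIndependent L v := by
    rw [Fintype.linearIndependent_iff]
    intro g hg i
    by_contra hne
    obtain ⟨π, hπ⟩ : ∃ π : L →ₗ[K] K, π (g i) ≠ 0 := by
      by_contra hcon
      simp only [not_exists, not_not] at hcon
      exact hne ((Module.forall_dual_apply_eq_zero_iff K (g i)).1 hcon)
    have h0 : ∑ j, π (g j) • (bs j : MvPolynomial σ K) = 0 := by
      have h1 := congrArg (coeffMap π) hg
      ext m
      have h2 := congrArg (coeff m) h1
      simp only [coeff_coeffMap, coeff_sum, coeff_zero, map_zero, map_sum, v, coeff_smul,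
        coeff_map, smul_eq_mul] at h2 ⊢
      rw [← h2]
      exact Finset.sum_congr rfl fun j _ => by
        rw [mul_comm (g j), ← Algebra.smul_def, map_smul, smul_eq_mul, mul_comm]
    have h3 : ∑ j, π (g j) • bs j = 0 := Subtype.ext (by simpa using h0)
    exact hπ (Fintype.linearIndependent_iff.1 bs.linearIndependent _ h3 i)
  have hspan : spanL L M = Submodule.span L (Set.range v) := by
    refine le_antisymm (Submodule.span_le.2 ?_) (Submodule.span_mono ?_)
    · rintro _ ⟨q, hq, rfl⟩
      have h1 := congrArg (fun x : M => (x : MvPolynomial σ K)) (bs.sum_repr ⟨q, hq⟩)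
      simp only [Submodule.coe_sum, Submodule.coe_smul] at h1
      rw [← h1, map_sum, SetLike.mem_coe]
      refine Submodule.sum_mem _ fun j _ => ?_
      rw [MvPolynomial.smul_eq_C_mul, map_mul, map_C, ← MvPolynomial.smul_eq_C_mul]
      exact Submodule.smul_mem _ _ (Submodule.subset_span ⟨j, rfl⟩)
    · rintro _ ⟨j, rfl⟩; exact ⟨_, (bs j).2, rfl⟩
  rw [hspan, finrank_span_eq_card hli, Fintype.card_fin]

/-- An ideal extended to a field extension is the span of the image. -/
lemma mem_map_iff_spanL {I : Ideal (MvPolynomial σ K)} {p : MvPolynomial σ L} :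
    p ∈ I.map (map (algebraMap K L)) ↔ p ∈ spanL L (I.restrictScalars K) := by
  constructor
  · intro hp
    rw [mem_spanL_iff]
    refine Submodule.span_induction (p := fun p _ => ∀ π : L →ₗ[K] K,
      coeffMap π p ∈ I.restrictScalars K) ?_ ?_ ?_ ?_ hp
    · rintro x ⟨q, hq, rfl⟩
      exact mem_spanL_iff.1 (Submodule.subset_span ⟨q, hq, rfl⟩)
    · exact mem_spanL_iff.1 (Submodule.zero_mem _)
    · intro x y _ _ hx hy π
      rw [coeffMap_add]; exact add_mem (hx π) (hy π)
    · intro r x _ hx π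
      rw [smul_eq_mul]
      rw [show r = ∑ m ∈ r.support, monomial m (coeff m r) from r.as_sum, Finset.sum_mul]
      refine mem_spanL_iff.1 (Submodule.sum_mem _ fun m _ => ?_) π
      rw [show monomial m (coeff m r) = coeff m r • map (algebraMap K L) (monomial m (1 : K)) by
        simp [smul_monomial], smul_mul_assoc]
      refine Submodule.smul_mem _ _ (mem_spanL_iff.2 fun π' => ?_)
      rw [coeffMap_map_mul]
      exact I.mul_mem_left _ (hx π')
  · intro hp
    induction hp using Submodule.span_induction with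
    | mem x hx => obtain ⟨q, hq, rfl⟩ := hx; exact Ideal.mem_map_of_mem _ hq
    | zero => exact zero_mem _
    | add x y _ _ hx hy => exact add_mem hx hy
    | smul r x _ hx => rw [MvPolynomial.smul_eq_C_mul]; exact Ideal.mul_mem_left _ _ hx

lemma nzd_map {I : Ideal (MvPolynomial σ K)} {f : MvPolynomial σ K}
    (hreg : ∀ p, f * p ∈ I → p ∈ I) (p : MvPolynomial σ L)
    (hp : map (algebraMap K L) f * p ∈ I.map (map (algebraMap K L))) :
    p ∈ I.map (map (algebraMap K L)) := by
  rw [mem_map_iff_spanL, mem_spanL_iff] at hp ⊢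
  intro π
  exact hreg _ (coeffMap_map_mul π f p ▸ hp π)

lemma map_hcomp (d : ℕ) (p : MvPolynomial σ K) :
    homogeneousComponent d (map (algebraMap K L) p) =
      map (algebraMap K L) (homogeneousComponent d p) := by
  ext m
  simp only [coeff_homogeneousComponent, coeff_map]
  split_ifs <;> simp

lemma coeffMap_hcomp (π : L →ₗ[K] K) (d : ℕ) (p : MvPolynomial σ L) :
    coeffMap π (homogeneousComponent d p) = homogeneousComponent d (coeffMap π p) := by
  ext m
  simp only [coeff_homogeneousComponent, coeff_coeffMap]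
  split_ifs <;> simp

end BaseChange

/-- Generic linear coordinates for a homogeneous regular sequence. -/
theorem exists_coords [Infinite K] {a b c : ℕ} (ha : 1 ≤ a) (hb : 1 ≤ b) (hc : 1 ≤ c)
    {f₁ f₂ f₃ : (MvPolynomial (Fin 3) K)} (h₁ : f₁.IsHomogeneous a) (h₂ : f₂.IsHomogeneous b) (h₃ : f₃.IsHomogeneous c)
    (h : Reg3 f₁ f₂ f₃) :
    ∃ A : (MvPolynomial (Fin 3) K) ≃ₐ[K] (MvPolynomial (Fin 3) K), (∀ d p, (A p).IsHomogeneous d ↔ p.IsHomogeneous d) ∧
      (∀ p, A f₁ * p ∈ Ideal.span {A f₂, A f₃} → p ∈ Ideal.span {A f₂, A f₃}) ∧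
      (∀ p, X 0 * p ∈ Ideal.span {A f₂, A f₃} → p ∈ Ideal.span {A f₂, A f₃}) ∧
      atInfty (A f₂) ≠ 0 ∧
      (∀ r, atInfty (A f₂) ∣ r * atInfty (A f₃) → atInfty (A f₂) ∣ r) ∧
      ∀ r, atInfty (A f₂) ∣ r * atInfty (A f₁) → atInfty (A f₂) ∣ r := by
  -- the regular sequence in the orders (2,3,1) and (2,1,3)
  have h213 : Reg3 f₂ f₁ f₃ := reg_swap12 (second_ne_zero ha h₁ h) h
  have h231 : Reg3 f₂ f₃ f₁ := reg_swap23 ha h₂ h₁ h₃ h213
  have hc₁ : constantCoeff f₁ = 0 := by
    rw [constantCoeff_eq]; exact h₁.coeff_eq_zero (by rw [map_zero]; omega)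
  have hc₃ : constantCoeff f₃ = 0 := by
    rw [constantCoeff_eq]; exact h₃.coeff_eq_zero (by rw [map_zero]; omega)
  obtain ⟨t, ht⟩ := ((finite_bad hc₁ h231.2.2).union
    (finite_bad hc₃ h213.2.2)).infinite_compl.nonempty
  simp only [Set.mem_compl_iff, Set.mem_union, Set.mem_ofPred_eq, not_or, not_not] at ht
  set A := coordEquiv t
  have hl : (lform t).IsHomogeneous 1 :=
    ((isHomogeneous_X K 0).add (isHomogeneous_C_mul_X t 1)).add (isHomogeneous_C_mul_X (t ^ 2) 2)
  have hfirst : ∀ {k : ℕ} {g : (MvPolynomial (Fin 3) K)}, 1 ≤ k → g.IsHomogeneous k → Reg3 f₂ g (lform t) →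
      Reg3 (X 0) (A f₂) (A g) := by
    intro k g hk hg H
    have H' := reg_swap23 hk h₂ hg hl H
    rw [← coord_lform t]
    exact reg3_map A (reg_swap12 (second_ne_zero hb h₂ H') H')
  have hA := reg3_map A h231
  have ht3 := transverse_at_infty (hfirst hc h₃ ⟨h231.1, h231.2.1, ht.1⟩)
  have ht1 := transverse_at_infty (hfirst ha h₁ ⟨h213.1, h213.2.1, ht.2⟩)
  refine ⟨A, coord_homogeneous t, hA.2.2, ?_, ht3.1, ht3.2, ht1.2⟩
  rw [← coord_lform t]
  exact (reg3_map A (⟨h231.1, h231.2.1, ht.1⟩ : Reg3 f₂ f₃ (lform t))).2.2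

/-- Passage to an infinite field. -/
theorem exists_infinite {a b c : ℕ} {f₁ f₂ f₃ : (MvPolynomial (Fin 3) K)} (h₁ : f₁.IsHomogeneous a)
    (h₂ : f₂.IsHomogeneous b) (h₃ : f₃.IsHomogeneous c) (h : Reg3 f₁ f₂ f₃)
    {I : Ideal (MvPolynomial (Fin 3) K)} (hI : ∀ p ∈ I, ∀ d, homogeneousComponent d p ∈ I)
    (m₁ : f₁ ∈ I) (m₂ : f₂ ∈ I) (m₃ : f₃ ∈ I) :
    ∃ (L : Type u) (_ : Field L) (_ : Infinite L) (g₁ g₂ g₃ : MvPolynomial (Fin 3) L)
      (J : Ideal (MvPolynomial (Fin 3) L)),
      g₁.IsHomogeneous a ∧ g₂.IsHomogeneous b ∧ g₃.IsHomogeneous c ∧ Reg3 g₁ g₂ g₃ ∧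
      (∀ p ∈ J, ∀ d, homogeneousComponent d p ∈ J) ∧ g₁ ∈ J ∧ g₂ ∈ J ∧ g₃ ∈ J ∧
      ∀ d, finrank L ↥(part J d) = finrank K ↥(part I d) := by
  let L := RatFunc K
  have : Infinite L := Infinite.of_injective (algebraMap (Polynomial K) (RatFunc K))
    (RatFunc.algebraMap_injective K)
  refine ⟨L, inferInstance, inferInstance, map (algebraMap K L) f₁, map (algebraMap K L) f₂,
    map (algebraMap K L) f₃, I.map (map (algebraMap K L)), h₁.map _, h₂.map _, h₃.map _,
    ⟨?_, ?_, ?_⟩, ?_, Ideal.mem_map_of_mem _ m₁, Ideal.mem_map_of_mem _ m₂,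
    Ideal.mem_map_of_mem _ m₃, fun d => ?_⟩
  · intro h0
    exact h.1 (map_injective _ (algebraMap K L).injective (by rw [h0, map_zero]))
  · intro p hp
    rw [← Set.image_singleton, ← Ideal.map_span] at hp ⊢
    exact nzd_map h.2.1 p hp
  · intro p hp
    rw [← Set.image_pair, ← Ideal.map_span] at hp ⊢
    exact nzd_map h.2.2 p hp
  · intro p hp d
    rw [mem_map_iff_spanL, mem_spanL_iff] at hp ⊢
    intro π
    rw [coeffMap_hcomp]
    exact hI _ (hp π) d
  · have hfin : Module.Finite K (part I d) := by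
      have hS : Module.Finite K (homogeneousSubmodule (Fin 3) K d) :=
        Module.Finite.of_fg (homogeneousSubmodule_fg (σ := Fin 3) (R := K) d)
      exact Submodule.finiteDimensional_of_le inf_le_right
    have heq : part (I.map (map (algebraMap K L))) d = spanL L (part I d) := by
      ext p
      rw [mem_spanL_iff]
      constructor
      · rintro ⟨hp, hd⟩ π
        refine ⟨mem_spanL_iff.1 (mem_map_iff_spanL.1 hp) π, fun m hm => ?_⟩
        rw [coeff_coeffMap] at hm
        exact hd fun h0 => hm (by rw [h0, map_zero])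
      · intro hp
        refine ⟨mem_map_iff_spanL.2 (mem_spanL_iff.2 fun π => (hp π).1), fun m hm => ?_⟩
        obtain ⟨π, hπ⟩ : ∃ π : L →ₗ[K] K, π (coeff m p) ≠ 0 := by
          by_contra hcon
          simp only [not_exists, not_not] at hcon
          exact hm ((Module.forall_dual_apply_eq_zero_iff K (coeff m p)).1 hcon)
        exact (hp π).2 (by rwa [coeff_coeffMap])
    rw [heq, finrank_spanL]

end Vale.P200
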