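import Vale.Agent.P200.Frame
import Vale.Agent.P200.Comb
import Vale.Agent.P200.Reduction
import Vale.Agent.P200.Core
import Vale.Agent.P200.Homog

/-!
P200: from homogeneous ideals in three variables to pairs in the frame.
-/

namespace Vale.P200

open Module MvPolynomial

variable {K : Type*} [Field K]


lemma finrank_plt_choose (k : ℕ) : finrank K ↥(plt K k) = (k + 1).choose 2 := by
  rw [← sq_choose (le_refl k) (le_refl k), plt,
    Module.finrank_eq_nat_card_basis (basisRestrictSupport K {d : Fin 2 →₀ ℕ | d 0 + d 1 < k})]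
  rw [sq, ← Nat.card_eq_finsetCard]
  refine Nat.card_congr ⟨fun d => ⟨(d.1 0, d.1 1), ?_⟩,
    fun p => ⟨Finsupp.equivFunOnFinite.symm ![p.1.1, p.1.2], ?_⟩, ?_, ?_⟩
  · have := d.2
    simp only [Set.mem_ofPred_eq] at this
    simp only [Finset.mem_filter, Finset.mem_product, Finset.mem_range]
    omega
  · have := (Finset.mem_filter.1 p.2).2
    simpa using this
  · intro d
    ext i
    fin_cases i <;> simp
  · intro p
    simp

lemma finrank_forms (e : ℕ) :
    finrank K ↥(homogeneousSubmodule (Fin 3) K e) = (e + 2).choose 2 := by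
  rw [← finrank_plt_choose (K := K), ← map_dehom, ← LinearMap.range_domRestrict]
  refine (LinearMap.finrank_range_of_inj ?_).symm
  rintro ⟨u, hu⟩ ⟨v, hv⟩ h
  exact Subtype.ext (dehom_inj hu hv h)

lemma finrank_map_forms {M : Type*} [AddCommGroup M] [Module K M] (Φ : (MvPolynomial (Fin 3) K) →ₗ[K] M) {e : ℕ}
    {P : Submodule K (MvPolynomial (Fin 3) K)} (hP : P ≤ homogeneousSubmodule (Fin 3) K e) :
    finrank K ↥(P.map Φ) + finrank K ↥(P ⊓ LinearMap.ker Φ) = finrank K P := by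
  have := Submodule.finiteDimensional_of_le hP
  have h := LinearMap.finrank_range_add_finrank_ker (Φ.domRestrict P)
  rw [LinearMap.range_domRestrict, LinearMap.ker_domRestrict] at h
  rw [← h, ← Submodule.map_comap_subtype, Submodule.finrank_map_subtype_eq]

/-- What the growth theorem gives in every degree (proved in `Growth.lean`). -/
def StepHolds.{u, v} (K : Type u) [Field K] (a b c : ℕ) : Prop :=
  ∀ (F : Type v) [CommRing F] [Algebra K F] [FiniteDimensional K F] (y z φ : F) (lam : F →ₗ[K] K),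
    IsFrame y z b (b + c - 2) lam → (∀ k, finrank K ↥(Gp (K := K) y z k) = sq b c k) → IsUnit φ →
    φ ∈ Gp (K := K) y z (a + 1) →
    (∀ T, T + a ≤ c → Gp (K := K) y z (T + a - 1) ⊓ sm φ (Gp y z T) ≤ sm φ (Gp y z (T - 1))) →
    ∀ (e : ℕ) (V W : Submodule K F), Pair y z φ e (e + 2 - a) V W →
      LexStep a b c e (finrank K V - sq b c (e + 1 - a)) (finrank K W - sq b c (e + 2 - a))

/-- The step for an ideal in generic coordinates, given the growth theorem. -/
theorem step_of_coords.{u} {K : Type u} [Field K] [Infinite K] {a b c : ℕ} (ha : 2 ≤ a)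
    (hab : a ≤ b) (hbc : b ≤ c)
    (hstep : StepHolds.{u, u} K a b c) {f₁ f₂ f₃ : MvPolynomial (Fin 3) K}
    (h₁ : f₁.IsHomogeneous a) (h₂ : f₂.IsHomogeneous b) (h₃ : f₃.IsHomogeneous c)
    (H1 : ∀ p, f₁ * p ∈ Ideal.span {f₂, f₃} → p ∈ Ideal.span {f₂, f₃})
    (H2 : ∀ p, X 0 * p ∈ Ideal.span {f₂, f₃} → p ∈ Ideal.span {f₂, f₃})
    (H3 : atInfty f₂ ≠ 0) (H4 : ∀ r, atInfty f₂ ∣ r * atInfty f₃ → atInfty f₂ ∣ r)
    (H5 : ∀ r, atInfty f₂ ∣ r * atInfty f₁ → atInfty f₂ ∣ r)
    (I : Ideal (MvPolynomial (Fin 3) K)) (m₁ : f₁ ∈ I) (m₂ : f₂ ∈ I) (m₃ : f₃ ∈ I) (e : ℕ) :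
    LexStep a b c e (finrank K ↥(part I e) + (mons a b c e).card - (e + 2).choose 2)
      (finrank K ↥(part I (e + 1)) + (mons a b c (e + 1)).card - (e + 3).choose 2) ∧
    (e + 2).choose 2 ≤ finrank K ↥(part I e) + (mons a b c e).card ∧
    finrank K ↥(part I e) ≤ (e + 2).choose 2 := by
  have hT : Transverse b c (dehom f₂) (dehom f₃) (atInfty f₂) (atInfty f₃) :=
    ⟨by omega, hbc, atInfty_isHomogeneous h₂, atInfty_isHomogeneous h₃, dehom_sub_atInfty h₂,
      dehom_sub_atInfty h₃, H3, H4⟩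
  obtain ⟨hfin, ⟨lam, hframe⟩, hcount⟩ := exists_isFrame hT
  set y := co (dehom f₂) (dehom f₃) 0 with hy_def
  set z := co (dehom f₂) (dehom f₃) 1 with hz_def
  let mk := Ideal.Quotient.mkₐ K (I2 (dehom f₂) (dehom f₃))
  have haev : aeval ![y, z] = mk := by
    refine algHom_ext fun i => ?_
    fin_cases i <;> simp [mk, hy_def, hz_def]
  set Φ : MvPolynomial (Fin 3) K →ₗ[K] MvPolynomial (Fin 2) K ⧸ I2 (dehom f₂) (dehom f₃) :=
    mk.toLinearMap ∘ₗ (dehom (K := K)).toLinearMap with hΦ_def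
  set φ := Φ f₁ with hφ_def
  have hΦ : ∀ u, Φ u = mk (dehom u) := fun u => rfl
  have hmul : ∀ u v, Φ (u * v) = Φ u * Φ v := fun u v => by simp only [hΦ, map_mul]
  have hd0 : dehom (X 0 : MvPolynomial (Fin 3) K) = 1 := by simp [dehom]
  have hd1 : dehom (X 1 : MvPolynomial (Fin 3) K) = X 0 := by simp [dehom]
  have hd2 : dehom (X 2 : MvPolynomial (Fin 3) K) = X 1 := by simp [dehom]
  have hX0 : Φ (X 0) = 1 := by rw [hΦ, hd0, map_one]
  have hX1 : Φ (X 1) = y := by rw [hΦ, hd1]; rfl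
  have hX2 : Φ (X 2) = z := by rw [hΦ, hd2]; rfl
  have hGp : ∀ k, (homogeneousSubmodule (Fin 3) K k).map Φ = Gp (K := K) y z (k + 1) := by
    intro k
    rw [hΦ_def, Submodule.map_comp, map_dehom, Gp, haev]
  have hlift : ∀ {k n : ℕ}, k ≤ n + 1 → ∀ x ∈ Gp (K := K) y z k,
      ∃ R, R.IsHomogeneous n ∧ Φ R = x := by
    intro k n hk x hx
    have hx' : x ∈ (homogeneousSubmodule (Fin 3) K n).map Φ := hGp n ▸ Gp_mono hk hx
    obtain ⟨R, hR, rfl⟩ := hx'
    exact ⟨R, hR, rfl⟩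
  have hspan : ∀ p, p ∈ Ideal.span {f₂, f₃} → Φ p = 0 := by
    intro p hp
    rw [hΦ]
    refine Ideal.Quotient.eq_zero_iff_mem.2 ?_
    have := Ideal.mem_map_of_mem (dehom (K := K)) hp
    rwa [Ideal.map_span, Set.image_pair] at this
  have hker : ∀ u n, u.IsHomogeneous n → Φ u = 0 → u ∈ Ideal.span {f₂, f₃} := fun u n hu h =>
    mem_span_of_dehom h₂ h₃ H2 hu (Ideal.Quotient.eq_zero_iff_mem.1 h)
  have hinj : Function.Injective (LinearMap.mulLeft K φ) := by
    rw [injective_iff_map_eq_zero]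
    intro x hx
    obtain ⟨r, rfl⟩ := Ideal.Quotient.mk_surjective x
    have hr : mk r ∈ Gp (K := K) y z (r.totalDegree + 1) :=
      mem_Gp.2 ⟨r, mem_plt_totalDegree r (by omega), by rw [haev]⟩
    obtain ⟨R, hR, hR'⟩ := hlift le_rfl _ hr
    have h0 : Φ (f₁ * R) = 0 := by rw [hmul, hR']; exact hx
    exact hR'.symm.trans (hspan R (H1 R (hker _ _ (h₁.mul hR) h0)))
  have hunit : IsUnit φ := by
    obtain ⟨w, hw⟩ := LinearMap.injective_iff_surjective.1 hinj 1
    exact IsUnit.of_mul_eq_one _ hw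
  have hφG : φ ∈ Gp (K := K) y z (a + 1) := hGp a ▸ Submodule.mem_map_of_mem h₁
  have hflat : ∀ T, T + a ≤ c → Gp (K := K) y z (T + a - 1) ⊓ sm φ (Gp y z T) ≤
      sm φ (Gp y z (T - 1)) := fun T hTc =>
    frame_flat hT (atInfty_isHomogeneous h₁) (dehom_sub_atInfty h₁) H5 hTc
  have hP : ∀ n k, k + a ≤ n + 1 → sm φ (Gp (K := K) y z k) ≤ (part I n).map Φ := by
    rintro n k hk _ ⟨x, hx, rfl⟩
    rcases Nat.eq_zero_or_pos k with rfl | hk0
    · rw [Gp_zero, SetLike.mem_coe, Submodule.mem_bot] at hx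
      simp [hx]
    obtain ⟨R, hR, rfl⟩ := hlift (n := n - a) (by omega) x hx
    refine ⟨f₁ * R, ⟨I.mul_mem_right _ m₁, ?_⟩, hmul _ _⟩
    rw [show n = a + (n - a) by omega]
    exact h₁.mul hR
  have hpart : ∀ n, (part I n).map Φ ≤ Gp (K := K) y z (n + 1) := fun n =>
    hGp n ▸ Submodule.map_mono (part_le I n)
  have hX : ∀ (i : Fin 3) (n : ℕ) (u : MvPolynomial (Fin 3) K),
      u ∈ part I n → X i * u ∈ part I (n + 1) := fun i n u hu =>
    ⟨I.mul_mem_left _ hu.1, by
      rw [Nat.add_comm n 1]; exact (isHomogeneous_X K i).mul hu.2⟩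
  have hpair : Pair y z φ e (e + 2 - a) ((part I e).map Φ) ((part I (e + 1)).map Φ) := by
    refine ⟨hpart e, hpart (e + 1), ?_, ?_, ?_, ?_, ?_⟩
    · rintro _ ⟨u, hu, rfl⟩
      exact ⟨X 0 * u, hX 0 e u hu, by rw [hmul, hX0, one_mul]⟩
    · rintro _ ⟨_, ⟨u, hu, rfl⟩, rfl⟩
      exact ⟨X 1 * u, hX 1 e u hu, by rw [hmul, hX1]; rfl⟩
    · rintro _ ⟨_, ⟨u, hu, rfl⟩, rfl⟩
      exact ⟨X 2 * u, hX 2 e u hu, by rw [hmul, hX2]; rfl⟩
    · rcases le_or_gt a e with h | h
      · exact hP e _ (by omega)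
      · rw [show e + 2 - a - 1 = 0 by omega, Gp_zero, sm, Submodule.map_bot]; exact bot_le
    · rcases le_or_gt a (e + 1) with h | h
      · exact hP (e + 1) _ (by omega)
      · rw [show e + 2 - a = 0 by omega, Gp_zero, sm, Submodule.map_bot]; exact bot_le
  have hstep' := hstep _ y z φ lam hframe hcount hunit hφG hflat e _ _ hpair
  have hsz : ∀ n, finrank K ↥((part I n).map Φ) + (n + 2).choose 2 =
      finrank K ↥(part I n) + sq b c (n + 1) := by
    intro n
    have h1 := finrank_map_forms Φ (part_le I n)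
    have h2 := finrank_map_forms Φ (le_refl (homogeneousSubmodule (Fin 3) K n))
    have h3 : part I n ⊓ LinearMap.ker Φ =
        homogeneousSubmodule (Fin 3) K n ⊓ LinearMap.ker Φ := by
      refine le_antisymm (inf_le_inf_right _ (part_le I n)) ?_
      rintro u ⟨hu, hu'⟩
      have hsp : Ideal.span {f₂, f₃} ≤ I := by
        rw [Ideal.span_le]
        rintro v (rfl | rfl)
        exacts [m₂, m₃]
      exact ⟨⟨hsp (hker u n hu hu'), hu⟩, hu'⟩
    rw [hGp, hcount, finrank_forms] at h2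
    rw [h3] at h1
    omega
  have hlow : ∀ n, sq b c (n + 1 - a) ≤ finrank K ↥((part I n).map Φ) := by
    intro n
    rcases le_or_gt a n with h | h
    · rw [← hcount, (Submodule.equivMapOfInjective _ hinj _).finrank_eq]
      exact Submodule.finrank_mono (hP n _ (by omega))
    · rw [show n + 1 - a = 0 by omega]
      simp [sq]
  have hle : finrank K ↥(part I e) ≤ (e + 2).choose 2 :=
    finrank_forms (K := K) e ▸ Submodule.finrank_mono (part_le I e)
  have c0 := card_mons (b := b) (c := c) (show 1 ≤ a by omega) e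
  have c1 := card_mons (b := b) (c := c) (show 1 ≤ a by omega) (e + 1)
  have s0 := hsz e
  have s1 := hsz (e + 1)
  have l0 := hlow e
  have l1 := hlow (e + 1)
  simp only [show e + 1 + 1 = e + 2 from rfl, show e + 1 + 2 = e + 3 from rfl] at c1 s1 l1
  refine ⟨?_, by omega, hle⟩
  rw [show finrank K ↥(part I e) + (mons a b c e).card - (e + 2).choose 2 =
      finrank K ↥((part I e).map Φ) - sq b c (e + 1 - a) by omega,
    show finrank K ↥(part I (e + 1)) + (mons a b c (e + 1)).card - (e + 3).choose 2 =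
      finrank K ↥((part I (e + 1)).map Φ) - sq b c (e + 2 - a) by omega]
  exact hstep'

end Vale.P200
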