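import Vale.Agent.P200.Frame.Grow

/-!
P200: a complete intersection in two affine variables, transverse at infinity, is a frame.
-/

namespace Vale.P200

open Module MvPolynomial

variable {K : Type*} [Field K]

variable [Infinite K] {b c : ℕ} {p q g h : MvPolynomial (Fin 2) K}

theorem exists_isFrame (H : Transverse b c p q g h) :
    FiniteDimensional K (MvPolynomial (Fin 2) K ⧸ I2 p q) ∧
    (∃ lam : (MvPolynomial (Fin 2) K ⧸ I2 p q) →ₗ[K] K,
      IsFrame (co p q 0) (co p q 1) b (b + c - 2) lam) ∧
    ∀ k, finrank K ↥(Gp (K := K) (co p q 0) (co p q 1) k) = sq b c k := by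
  have hb := H.hb
  have hbc := H.hbc
  obtain ⟨lam, hlam⟩ := exists_lam H
  refine ⟨frame_finite H, ⟨lam, ?_⟩, finrank_Gp H⟩
  exact
    { one_le_b := hb
      b_le := by omega
      free := fun P hP h0 => frame_free H hP h0
      top := Gp_top H (by omega)
      socle := fun k hk u hu hy hz => frame_socle H (by omega) hu hy hz
      perp := fun k u => frame_perp H hlam k u
      grow := fun j hj M hM => by
        by_cases hjc : j + 1 < c
        · exact Or.inl (grow_low H hjc hM)
        · exact grow_high H hlam (not_lt.1 hjc) hj hM }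

/-- Below degree `c` a third form that is transverse to `g` gives no new low elements. -/
theorem frame_flat (H : Transverse b c p q g h) {a T : ℕ} {r f : MvPolynomial (Fin 2) K}
    (hf : f.IsHomogeneous a) (hr : r - f ∈ plt K a) (hcop : ∀ s, g ∣ s * f → g ∣ s)
    (hT : T + a ≤ c) :
    Gp (K := K) (co p q 0) (co p q 1) (T + a - 1) ⊓
        sm (Ideal.Quotient.mk (I2 p q) r) (Gp (co p q 0) (co p q 1) T) ≤
      sm (Ideal.Quotient.mk (I2 p q) r) (Gp (co p q 0) (co p q 1) (T - 1)) := by
  rintro u ⟨hu, v, hv, rfl⟩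
  refine ⟨v, ?_, rfl⟩
  rcases Nat.eq_zero_or_pos T with rfl | hT0
  · exact Gp_mono (Nat.zero_le _) hv
  obtain ⟨i, rfl⟩ := Nat.exists_eq_succ_of_ne_zero hT0.ne'
  obtain ⟨V, hV, rfl⟩ := mem_Gp_co.1 hv
  rw [LinearMap.mulLeft_apply, ← map_mul, show i.succ + a - 1 = i + a by omega] at hu
  have hr' : r ∈ plt K (a + 1) := by
    simpa using add_mem (plt_mono (Nat.le_succ a) hr) (isHomogeneous_mem_plt hf)
  have hrV : r * V ∈ plt K (i + a + 1) := plt_mono (by omega) (plt_mul hr' hV)
  have e : homogeneousComponent (i + a) (r * V) = homogeneousComponent i V * f := by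
    rw [show r * V = homogeneousComponent i V * f +
      ((V - homogeneousComponent i V) * f + V * (r - f)) by ring, map_add,
      comp_plt (k := i + a) (add_mem (plt_mono (by omega)
        (plt_mul (sub_comp_mem hV) (isHomogeneous_mem_plt hf)))
        (plt_mono (by omega) (plt_mul hV hr))) le_rfl, add_zero]
    exact homogeneousComponent_eq_self ((homogeneousComponent_isHomogeneous i V).mul hf)
  replace hu : Ideal.Quotient.mk (I2 p q) (r * V) ∈ GG p q (i + a) := hu
  rw [mk_comp_gr H hrV, e] at hu
  obtain ⟨A, hA⟩ := hcop _ (IJ_mid H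
    (plt_mono (by omega) (plt_mul (comp_mem_plt i V) (isHomogeneous_mem_plt hf))) hu)
  change Ideal.Quotient.mk (I2 p q) V ∈ GG p q i
  rw [mk_comp_gr H hV]
  exact Ideal.mem_span_pair.2 ⟨A, 0, by rw [hA]; ring⟩

end Vale.P200
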