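import Vale.Agent.P200.Pencil
import Vale.Agent.P200.Core

/-!
P200: the growth theorem for pairs in a frame, by strong induction on the gain.
-/

namespace Vale.P200

open Module

variable {K F : Type*} [Field K] [CommRing F] [Algebra K F]

/-- The orthogonal of `M` for `(u, v) ↦ lam (u v)`. -/
noncomputable def orth (lam : F →ₗ[K] K) (M : Submodule K F) : Submodule K F :=
  M.dualAnnihilator.comap (LinearMap.compr₂ (LinearMap.mul K F) lam)

lemma mem_orth {lam : F →ₗ[K] K} {M : Submodule K F} {u : F} :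
    u ∈ orth lam M ↔ ∀ m ∈ M, lam (u * m) = 0 := by
  simp [orth, Submodule.mem_dualAnnihilator]

lemma orth_anti {lam : F →ₗ[K] K} {M N : Submodule K F} (h : M ≤ N) : orth lam N ≤ orth lam M :=
  fun _ hu => mem_orth.2 fun m hm => mem_orth.1 hu m (h hm)

lemma inf_map_comap (f : F →ₗ[K] F) (A B : Submodule K F) :
    (A ⊓ B.comap f).map f = A.map f ⊓ B := by
  ext v
  simp only [Submodule.mem_map, Submodule.mem_inf, Submodule.mem_comap]
  constructor
  · rintro ⟨x, ⟨hx, hB⟩, rfl⟩; exact ⟨⟨x, hx, rfl⟩, hB⟩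
  · rintro ⟨⟨x, hx, rfl⟩, hB⟩; exact ⟨x, ⟨hx, hB⟩, rfl⟩

lemma finrank_sm {φ : F} (hφ : IsUnit φ) (M : Submodule K F) :
    finrank K ↥(sm φ M) = finrank K M :=
  (Submodule.equivMapOfInjective (LinearMap.mulLeft K φ) (fun _ _ h => hφ.mul_left_cancel h) M).finrank_eq.symm

variable [FiniteDimensional K F] {y z φ : F} {b D a : ℕ} {lam : F →ₗ[K] K}

lemma tp_mono {M M' : Submodule K F} (h : M ≤ M') (j : ℕ) : tp y z M j ≤ tp y z M' j := by
  have := Submodule.finrank_mono (sup_le_sup_right h (Gp (K := K) y z j))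
  unfold tp
  omega

omit [FiniteDimensional K F] in
lemma IsFrame.orth_Gp (H : IsFrame y z b D lam) (k : ℕ) :
    orth lam (Gp y z k) = Gp y z (D + 1 - k) := by
  ext u; rw [mem_orth]; exact H.perp k u

lemma IsFrame.finrank_orth (H : IsFrame y z b D lam) (M : Submodule K F) :
    finrank K ↥(orth lam M) + finrank K M = finrank K F := by
  set Φ := LinearMap.compr₂ (LinearMap.mul K F) lam
  have hinj : Function.Injective Φ := by
    rw [← LinearMap.ker_eq_bot, eq_bot_iff]
    intro u hu
    have h := (H.perp (D + 1) u).1 fun g _ => LinearMap.congr_fun (LinearMap.mem_ker.1 hu) g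
    rwa [Nat.sub_self, Gp_zero] at h
  have hsurj : Function.Surjective Φ :=
    (LinearMap.injective_iff_surjective_of_finrank_eq_finrank Subspace.dual_finrank_eq.symm).1 hinj
  have h1 : finrank K ↥(orth lam M) = finrank K ↥M.dualAnnihilator := by
    conv_rhs => rw [← Submodule.map_comap_eq_of_surjective hsurj M.dualAnnihilator]
    exact (Submodule.equivMapOfInjective Φ hinj _).finrank_eq
  rw [h1, add_comm]
  exact Subspace.finrank_add_finrank_dualAnnihilator_eq M

lemma IsFrame.finrank_compl (H : IsFrame y z b D lam) (k : ℕ) :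
    finrank K ↥(Gp (K := K) y z (D + 1 - k)) + finrank K ↥(Gp (K := K) y z k) = finrank K F := by
  rw [← H.orth_Gp k]; exact H.finrank_orth _

omit [FiniteDimensional K F] in
/-- Linkage. -/
lemma Pair.dual (H : IsFrame y z b D lam) {e e' : ℕ}
    (he : e + e' + 2 = D + a) {V W : Submodule K F} (P : Pair y z φ e (e + 2 - a) V W) :
    Pair y z φ e' (e' + 2 - a) (sm φ (orth lam W)) (sm φ (orth lam V)) := by
  have up : ∀ j (M : Submodule K F), sm φ (Gp y z j) ≤ M →
      sm φ (orth lam M) ≤ Gp y z (D + 1 - j) := by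
    rintro j M hM _ ⟨u, hu, rfl⟩
    rw [← H.orth_Gp j]
    refine mem_orth.2 fun g hg => ?_
    simp only [LinearMap.mulLeft_apply]
    rw [mul_comm φ u, mul_assoc]
    exact mem_orth.1 hu _ (mul_mem_of_sm_le hM hg)
  have down : ∀ j (M : Submodule K F), M ≤ Gp y z j → Gp y z (D + 1 - j) ≤ orth lam M :=
    fun j M hM => (H.orth_Gp j).ge.trans (orth_anti hM)
  have hmul : ∀ a : F, sm a V ≤ W → sm a (sm φ (orth lam W)) ≤ sm φ (orth lam V) := by
    rintro a ha _ ⟨_, ⟨u, hu, rfl⟩, rfl⟩
    refine ⟨a * u, mem_orth.2 fun v hv => ?_, ?_⟩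
    · rw [mul_comm a u, mul_assoc]
      exact mem_orth.1 hu _ (mul_mem_of_sm_le ha hv)
    · simp only [LinearMap.mulLeft_apply]; ring
  refine ⟨?_, ?_, Submodule.map_mono (orth_anti P.le), hmul y P.hy, hmul z P.hz, ?_, ?_⟩
  · exact (up _ W P.pW).trans (Gp_mono (by omega))
  · exact (up _ V P.pV).trans (Gp_mono (by omega))
  · exact Submodule.map_mono ((Gp_mono (by omega)).trans (down (e + 2) W P.hW))
  · exact Submodule.map_mono ((Gp_mono (by omega)).trans (down (e + 1) V P.hV))

/-- Below degree `b` the top layer of `P + yP + zP` exceeds that of `P`. -/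
lemma free_grow (free : ∀ p ∈ plt K b, MvPolynomial.aeval ![y, z] p = 0 → p = 0) {k : ℕ}
    (hk : k + 2 ≤ b) {P : Submodule K F} (hP : P ≤ Gp y z (k + 1)) (hne : ¬P ≤ Gp y z k) :
    tp y z P k + 1 ≤ tp y z (nb y z P) (k + 1) := by
  classical
  have shift : ∀ (i : Fin 2) (p : MvPolynomial (Fin 2) K) (d : Fin 2 →₀ ℕ),
      MvPolynomial.coeff (d + Finsupp.single i 1) (MvPolynomial.X i * p) = MvPolynomial.coeff d p :=
    fun i p d => by rw [add_comm, MvPolynomial.coeff_X_mul]
  have czero : ∀ {n : ℕ} {p : MvPolynomial (Fin 2) K}, p ∈ plt K n → ∀ d : Fin 2 →₀ ℕ,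
      n ≤ d 0 + d 1 → MvPolynomial.coeff d p = 0 := by
    intro n p hp d hd
    by_contra h
    exact absurd (mem_plt.1 hp d (MvPolynomial.mem_support_iff.2 h)) (by omega)
  have eqpoly : ∀ {p : MvPolynomial (Fin 2) K}, p ∈ plt K (k + 2) →
      MvPolynomial.aeval ![y, z] p = 0 → p = 0 := fun hp h => free _ (plt_mono hk hp) h
  -- `y` is injective on the top layer
  have hker : P ⊓ (Gp y z (k + 1)).comap (LinearMap.mulLeft K y) = P ⊓ Gp y z k := by
    refine le_antisymm (fun u hu => ⟨hu.1, ?_⟩) (fun u hu => ⟨hu.1, y_mul_Gp hu.2⟩)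
    obtain ⟨p, hp, rfl⟩ := mem_Gp.1 (hP hu.1)
    obtain ⟨r, hr, hre⟩ := mem_Gp.1 hu.2
    have h0 := eqpoly (sub_mem (plt_mono (by omega) (plt_mul (X_mem_plt 0) hp))
      (plt_mono (by omega) hr)) (by simp [hre])
    refine mem_Gp.2 ⟨p, mem_plt.2 fun d hd => ?_, rfl⟩
    by_contra hlt
    have := congrArg (MvPolynomial.coeff (d + Finsupp.single 0 1)) h0
    rw [MvPolynomial.coeff_sub, shift, czero hr _ (by simp; omega), sub_zero,
      MvPolynomial.coeff_zero] at this
    exact MvPolynomial.mem_support_iff.1 hd this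
  have hrk := finrank_rk y P (Gp (K := K) y z (k + 1))
  rw [hker] at hrk
  have htp := tp_eq y z P k
  -- `z P` is not inside `y P + G`
  have hz : ¬sm z P ≤ Gp y z (k + 1) ⊔ sm y P := by
    intro hsub
    have hex : ∃ j, ∃ p ∈ plt K (k + 1), MvPolynomial.aeval ![y, z] p ∈ P ∧
        ∃ d : Fin 2 →₀ ℕ, d 0 = j ∧ d 0 + d 1 = k ∧ MvPolynomial.coeff d p ≠ 0 := by
      obtain ⟨u, hu, huk⟩ := SetLike.not_le_iff_exists.1 hne
      obtain ⟨p, hp, rfl⟩ := mem_Gp.1 (hP hu)
      by_contra hall
      push Not at hall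
      refine huk (mem_Gp.2 ⟨p, mem_plt.2 fun d hd => ?_, rfl⟩)
      by_contra hlt
      have := mem_plt.1 hp d hd
      exact MvPolynomial.mem_support_iff.1 hd (hall (d 0) p hp hu d rfl (by omega))
    obtain ⟨p, hp, hpP, d, hd0, hdk, hne⟩ := Nat.find_spec hex
    obtain ⟨g, hg, _, ⟨u', hu', rfl⟩, hsum⟩ :=
      Submodule.mem_sup.1 (hsub ⟨_, hpP, rfl⟩)
    obtain ⟨r, hr, rfl⟩ := mem_Gp.1 hg
    obtain ⟨p', hp', rfl⟩ := mem_Gp.1 (hP hu')
    have h0 := eqpoly (sub_mem (plt_mono (by omega) (plt_mul (X_mem_plt 1) hp))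
      (add_mem (plt_mono (by omega) hr) (plt_mono (by omega) (plt_mul (X_mem_plt 0) hp'))))
      (by simp only [LinearMap.mulLeft_apply] at hsum; simp [hsum])
    have hc := congrArg (MvPolynomial.coeff (d + Finsupp.single 1 1)) h0
    rw [MvPolynomial.coeff_sub, shift, MvPolynomial.coeff_add, czero hr _ (by simp; omega), zero_add,
      MvPolynomial.coeff_X_mul', MvPolynomial.coeff_zero] at hc
    split_ifs at hc with hmem
    · have hd0' : 0 < d 0 := by
        rw [Finsupp.mem_support_iff] at hmem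
        simp at hmem
        omega
      refine Nat.find_min hex (m := d 0 - 1) (by omega)
        ⟨p', hp', hu', d + Finsupp.single 1 1 - Finsupp.single 0 1, by simp, ?_, ?_⟩
      · simp; omega
      · rw [sub_eq_zero] at hc
        rwa [← hc]
    · rw [sub_zero] at hc; exact hne hc
  have hlt : finrank K ↥(Gp y z (k + 1) ⊔ sm y P) < finrank K ↥(nb y z P ⊔ Gp y z (k + 1)) := by
    refine Submodule.finrank_lt_finrank_of_lt (lt_of_le_not_ge ?_ fun h => hz ?_)
    · exact sup_le le_sup_right ((le_sup_right.trans le_sup_left).trans le_sup_left)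
    · exact (le_sup_right.trans le_sup_left).trans h
  unfold tp at htp ⊢
  omega

variable [Infinite K]

/-- The growth theorem. -/
theorem growth (H : IsFrame y z b D lam) (hφ : IsUnit φ)
    (ha : 1 ≤ a) (hab : a ≤ b) (hD : a + b ≤ D + 2)
    (hdim : ∀ k ≤ b, finrank K ↥(Gp (K := K) y z k) = (k + 1).choose 2)
    {e T : ℕ} (hT : T + a = e + 2) (hT1 : 1 ≤ T) (hTb : T ≤ b) (heD : e + 1 ≤ D)
    (g : ℕ) (hgb : g < b) (V W : Submodule K F) (P : Pair y z φ e T V W)
    (hg : finrank K W = finrank K V + g) :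
    finrank K V ≤ g.choose 2 ∨ finrank K F ≤ finrank K W + g.choose 2 := by
  induction g using Nat.strong_induction_on generalizing V W with
  | _ g IH =>
    obtain ⟨s, hmax1, hmax0⟩ := exists_generic y z V V W W
    by_cases hinj : ∀ u ∈ V, (y + s • z) * u ∈ V → z * u ∈ V
    · exact Or.inl (small_of_inj H hφ hab hT heD P s hinj hg hgb)
    by_cases hsurj : V ⊔ sm (y + s • z) V = W
    · -- the linked pair is injective
      right
      have P' : Pair y z φ e (e + 2 - a) V W := by rwa [show e + 2 - a = T by omega]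
      have Pd := P'.dual H (e' := D + a - 2 - e) (by omega)
      have hd1 := H.finrank_orth W
      have hd2 := H.finrank_orth V
      have key : ∀ x ∈ sm φ (orth lam W), (y + s • z) * x ∈ sm φ (orth lam W) →
          z * x ∈ sm φ (orth lam W) := by
        intro x hx htx
        obtain ⟨f, hf, hfe⟩ := mul_mem_of_sm_le Pd.hz hx
        obtain ⟨f', hf', hfe'⟩ := mul_mem_of_sm_le Pd.hz htx
        simp only [LinearMap.mulLeft_apply] at hfe hfe'
        have hft : f' = (y + s • z) * f := hφ.mul_left_cancel (by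
          rw [hfe', mul_left_comm φ, hfe, mul_left_comm])
        refine ⟨f, mem_orth.2 fun w hw => ?_, hfe⟩
        rw [← hsurj] at hw
        obtain ⟨v, hv, _, ⟨v', hv', rfl⟩, rfl⟩ := Submodule.mem_sup.1 hw
        rw [mul_add, map_add, mem_orth.1 hf v hv, LinearMap.mulLeft_apply, ← mul_assoc,
          mul_comm f, ← hft, mem_orth.1 hf' v' hv', add_zero]
      have hres := small_of_inj H hφ hab (T := D + a - 2 - e + 2 - a) (e := D + a - 2 - e)
        (by omega) (by omega) Pd s key (g := g)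
        (by rw [finrank_sm hφ, finrank_sm hφ]; omega) hgb
      rw [finrank_sm hφ] at hres
      omega
    -- neither
    set t := y + s • z with ht_def
    push Not at hinj
    obtain ⟨u₀, hu₀, htu₀, hzu₀⟩ := hinj
    have htV : sm t V ≤ W := P.ht s
    have hyt : ∀ x : F, y * x = t * x - s • (z * x) := fun x => by
      rw [ht_def, add_mul, smul_mul_assoc]; abel
    -- descent
    set A1 := wl t z V V with hA1
    have hA1V : A1 ≤ V := wl_le_self t z V V
    set WL := V ⊔ sm t A1 with hWL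
    have hzA1 : sm z A1 ≤ WL := sm_wl_le t z V V hmax1
    have hyA1 : sm y A1 ≤ WL := by
      rintro _ ⟨x, hx, rfl⟩
      simp only [LinearMap.mulLeft_apply, hyt x]
      exact sub_mem (Submodule.mem_sup_right ⟨x, hx, rfl⟩)
        (WL.smul_mem _ (mul_mem_of_sm_le hzA1 hx))
    have hWLW : WL ≤ W := sup_le P.le ((Submodule.map_mono hA1V).trans htV)
    have hrkD : finrank K ↥WL + finrank K V = finrank K ↥(V ⊔ sm t V) + finrank K A1 :=
      finrank_sup_sm_of_ker_le t hA1V fun x hx => ker_le_wl hx.1 hx.2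
    have hρ : finrank K ↥(V ⊔ sm t V) < finrank K W :=
      Submodule.finrank_lt_finrank_of_lt (lt_of_le_of_ne (sup_le P.le htV) hsurj)
    set V1 := A1 ⊔ sm φ (Gp y z (T - 1)) with hV1
    set W1 := WL ⊔ sm φ (Gp y z T) with hW1
    have hV1V : V1 ≤ V := sup_le hA1V P.pV
    have hW1W : W1 ≤ W := sup_le hWLW P.pW
    have hmulG : ∀ c : F, (∀ {k : ℕ} {x : F}, x ∈ Gp (K := K) y z k → c * x ∈ Gp (K := K) y z (k + 1)) →
        sm c (sm φ (Gp (K := K) y z (T - 1))) ≤ sm φ (Gp y z T) := by
      rintro c hc _ ⟨_, ⟨x, hx, rfl⟩, rfl⟩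
      refine ⟨c * x, Gp_mono (by omega) (hc hx), ?_⟩
      simp only [LinearMap.mulLeft_apply]; ring
    have P1 : Pair y z φ e T V1 W1 := by
      refine ⟨hV1V.trans P.hV, hW1W.trans P.hW, ?_, ?_, ?_, le_sup_right, le_sup_right⟩
      · exact sup_le_sup (hA1V.trans le_sup_left) (Submodule.map_mono (Gp_mono (by omega)))
      · change Submodule.map _ (A1 ⊔ _) ≤ _
        rw [Submodule.map_sup]; exact sup_le_sup hyA1 (hmulG y y_mul_Gp)
      · change Submodule.map _ (A1 ⊔ _) ≤ _
        rw [Submodule.map_sup]; exact sup_le_sup hzA1 (hmulG z z_mul_Gp)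
    by_cases hdown : finrank K ↥W1 < finrank K ↥V1 + g
    · have h1 := Submodule.finrank_mono P1.le
      have h2 : finrank K V ≤ finrank K ↥WL := Submodule.finrank_mono le_sup_left
      have h3 := Submodule.finrank_mono hW1W
      have h4 : finrank K A1 ≤ finrank K ↥V1 := Submodule.finrank_mono le_sup_left
      set g1 := finrank K ↥W1 - finrank K ↥V1 with hg1
      have hstep := choose2_add (g := g) (g' := g1) (x := finrank K V - finrank K ↥V1)
        (by omega) (by omega)
      rcases IH g1 (by omega) (by omega) V1 W1 P1 (by omega) with h | h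
      · left; omega
      · right; omega
    -- the descent fails: `V / A1` contains `φ G(T-1) / φ G(T-2)`
    have hcodim : finrank K A1 + (T - 1) ≤ finrank K V := by
      have hV1le := Submodule.finrank_mono hV1V
      set f := LinearMap.mulLeft K φ with hf
      set Pp := Gp y z (T - 1) ⊓ A1.comap f with hPp
      set Qp := Gp y z T ⊓ WL.comap f with hQp
      have eP : finrank K ↥(A1 ⊓ sm φ (Gp y z (T - 1))) = finrank K ↥Pp := by
        rw [← finrank_sm hφ Pp, hPp]
        change _ = finrank K ↥(Submodule.map f _)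
        rw [inf_map_comap, inf_comm]
      have eQ : finrank K ↥(WL ⊓ sm φ (Gp y z T)) = finrank K ↥Qp := by
        rw [← finrank_sm hφ Qp, hQp]
        change _ = finrank K ↥(Submodule.map f _)
        rw [inf_map_comap, inf_comm]
      have hs1 := Submodule.finrank_sup_add_finrank_inf_eq A1 (sm φ (Gp y z (T - 1)))
      have hs2 := Submodule.finrank_sup_add_finrank_inf_eq WL (sm φ (Gp y z T))
      rw [eP, finrank_sm hφ, ← hV1] at hs1
      rw [eQ, finrank_sm hφ, ← hW1] at hs2
      have hd0 := hdim T hTb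
      have hd1 := hdim (T - 1) (by omega)
      have hd2 := hdim (T - 2) (by omega)
      have hch1 : (T + 1).choose 2 = (T - 1 + 1).choose 2 + T := by
        obtain ⟨m, rfl⟩ : ∃ m, T = m + 1 := ⟨T - 1, by omega⟩
        rw [Nat.add_sub_cancel, Nat.choose_succ_succ' (m + 1) 1, Nat.choose_one_right]
        simp only [show (1 : ℕ) + 1 = 2 from rfl]
        omega
      have hlow : ∀ x ∈ Gp (K := K) y z (T - 1), φ * x ∈ WL := fun x hx =>
        Submodule.mem_sup_left (mul_mem_of_sm_le P.pV hx)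
      have hnbP : Gp y z (T - 1) ⊔ nb y z Pp ≤ Qp := by
        refine sup_le (fun x hx => ⟨Gp_mono (by omega) hx, hlow x hx⟩)
          (sup_le (sup_le (fun x hx => ⟨Gp_mono (by omega) hx.1, hlow x hx.1⟩) ?_) ?_)
        · rintro _ ⟨x, hx, rfl⟩
          refine ⟨Gp_mono (by omega) (y_mul_Gp hx.1), ?_⟩
          rw [SetLike.mem_coe, Submodule.mem_comap]
          simp only [hf, LinearMap.mulLeft_apply, mul_left_comm φ y x]
          exact mul_mem_of_sm_le hyA1 hx.2
        · rintro _ ⟨x, hx, rfl⟩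
          refine ⟨Gp_mono (by omega) (z_mul_Gp hx.1), ?_⟩
          rw [SetLike.mem_coe, Submodule.mem_comap]
          simp only [hf, LinearMap.mulLeft_apply, mul_left_comm φ z x]
          exact mul_mem_of_sm_le hzA1 hx.2
      have hQle := Submodule.finrank_mono hnbP
      rcases Nat.lt_or_ge T 2 with hT2 | hT2
      · have := Submodule.finrank_mono hA1V
        omega
      have hch2 : (T - 1 + 1).choose 2 = (T - 2 + 1).choose 2 + (T - 1) := by
        obtain ⟨m, rfl⟩ : ∃ m, T = m + 2 := ⟨T - 2, by omega⟩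
        rw [Nat.add_sub_cancel, show m + 2 - 1 + 1 = m + 1 + 1 by omega,
          Nat.choose_succ_succ' (m + 1) 1, Nat.choose_one_right, show m + 2 - 1 = m + 1 by omega]
        simp only [show (1 : ℕ) + 1 = 2 from rfl]
        omega
      by_cases hlowP : Pp ≤ Gp y z (T - 2)
      · have := Submodule.finrank_mono hlowP
        omega
      · have e1 : T - 2 + 1 = T - 1 := by omega
        have hPp1 : Pp ≤ Gp y z (T - 2 + 1) := e1.symm ▸ (inf_le_left : Pp ≤ Gp y z (T - 1))
        have hgrow := free_grow H.free (k := T - 2) (by omega) hPp1 hlowP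
        rw [e1] at hgrow
        have h5 := tp_eq y z Pp (T - 2)
        have h6 := Submodule.finrank_mono (inf_le_right : Pp ⊓ Gp y z (T - 2) ≤ Gp y z (T - 2))
        have h7 := Submodule.finrank_mono (le_sup_right : Gp y z (T - 1) ≤ nb y z Pp ⊔ Gp y z (T - 1))
        rw [sup_comm] at hQle
        unfold tp at hgrow h5
        omega
    -- ascent
    set A0 := wl t z W W with hA0
    have hA0W : A0 ≤ W := wl_le_self t z W W
    have hVA0 : V ≤ A0 := fun x hx => ker_le_wl (P.le hx) (htV ⟨x, hx, rfl⟩)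
    set WU := W ⊔ sm t A0 with hWU
    have hzA0 : sm z A0 ≤ WU := sm_wl_le t z W W hmax0
    have hyA0 : sm y A0 ≤ WU := by
      rintro _ ⟨x, hx, rfl⟩
      simp only [LinearMap.mulLeft_apply, hyt x]
      exact sub_mem (Submodule.mem_sup_right ⟨x, hx, rfl⟩)
        (WU.smul_mem _ (mul_mem_of_sm_le hzA0 hx))
    have htA0 : sm t A0 ≤ nb y z A0 := by
      rintro _ ⟨x, hx, rfl⟩
      simp only [LinearMap.mulLeft_apply, ht_def, add_mul, smul_mul_assoc]
      exact add_mem (Submodule.mem_sup_left (Submodule.mem_sup_right ⟨x, hx, rfl⟩))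
        (Submodule.smul_mem _ _ (Submodule.mem_sup_right ⟨x, hx, rfl⟩))
    have hWUtop : WU ⊔ Gp y z (e + 2) = nb y z A0 ⊔ Gp y z (e + 2) :=
      le_antisymm (sup_le (sup_le (P.hW.trans le_sup_right) (htA0.trans le_sup_left)) le_sup_right)
        (sup_le ((sup_le (sup_le (hA0W.trans le_sup_left) hyA0) hzA0).trans le_sup_left) le_sup_right)
    have hrkU : finrank K ↥WU + finrank K W = finrank K ↥(W ⊔ sm t W) + finrank K A0 :=
      finrank_sup_sm_of_ker_le t hA0W fun x hx => ker_le_wl hx.1 hx.2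
    set Ker := W ⊓ W.comap (LinearMap.mulLeft K t) with hKer
    have hz0 : z * u₀ ∈ W := mul_mem_of_sm_le P.hz hu₀
    have hzker : z * u₀ ∈ Ker := ⟨hz0, by
      rw [SetLike.mem_coe, Submodule.mem_comap]
      simp only [LinearMap.mulLeft_apply]
      rw [mul_left_comm]
      exact mul_mem_of_sm_le P.hz htu₀⟩
    have hVKer : V ≤ Ker := fun x hx => ⟨P.le hx, htV ⟨x, hx, rfl⟩⟩
    have hkerlt : finrank K ↥(V ⊔ K ∙ (z * u₀)) ≤ finrank K ↥Ker :=
      Submodule.finrank_mono (sup_le hVKer ((Submodule.span_singleton_le_iff_mem _ _).2 hzker))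
    have hVlt : finrank K V < finrank K ↥(V ⊔ K ∙ (z * u₀)) :=
      Submodule.finrank_lt_finrank_of_lt (lt_of_le_not_ge le_sup_left fun h =>
        hzu₀ (h (Submodule.mem_sup_right (Submodule.mem_span_singleton_self _))))
    have hrkW := finrank_rk t W W
    rw [← hKer] at hrkW
    set V2 := A0 ⊓ Gp y z (e + 1) with hV2
    set W2 := WU ⊓ Gp y z (e + 2) with hW2
    have hA0G : A0 ≤ Gp y z (e + 2) := hA0W.trans P.hW
    have P2 : Pair y z φ e T V2 W2 := by
      refine ⟨inf_le_right, inf_le_right, ?_, ?_, ?_, le_inf (P.pV.trans hVA0) ?_,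
        le_inf (P.pW.trans le_sup_left) (P.pW.trans P.hW)⟩
      · exact le_inf (inf_le_left.trans (hA0W.trans le_sup_left)) (inf_le_left.trans hA0G)
      · rintro _ ⟨x, hx, rfl⟩
        exact ⟨hyA0 ⟨x, hx.1, rfl⟩, y_mul_Gp hx.2⟩
      · rintro _ ⟨x, hx, rfl⟩
        exact ⟨hzA0 ⟨x, hx.1, rfl⟩, z_mul_Gp hx.2⟩
      · exact P.pV.trans P.hV
    by_cases hup : finrank K ↥W2 < finrank K ↥V2 + g
    · have h1 : finrank K V ≤ finrank K ↥V2 := Submodule.finrank_mono (le_inf hVA0 P.hV)
      have h2 : finrank K ↥V2 ≤ finrank K W := Submodule.finrank_mono (inf_le_left.trans hA0W)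
      have h3 := Submodule.finrank_mono P2.le
      set g2 := finrank K ↥W2 - finrank K ↥V2 with hg2
      have hstep := choose2_add (g := g) (g' := g2) (x := g2) (by omega) (by omega)
      rcases IH g2 (by omega) (by omega) V2 W2 P2 (by omega) with h | h
      · left; omega
      · right; omega
    -- both fail: impossible
    exfalso
    have htpA := tp_eq y z A0 (e + 1)
    have htpW := tp_eq y z WU (e + 2)
    rw [← hV2] at htpA
    rw [← hW2] at htpW
    have htpeq : tp y z WU (e + 2) = tp y z (nb y z A0) (e + 2) := by unfold tp; rw [hWUtop]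
    rcases H.grow (e + 1) heD A0 hA0G with hgr | ⟨hgr1, hgr2⟩
    · have : tp y z (nb y z A0) (e + 1 + 1) = tp y z (nb y z A0) (e + 2) := rfl
      omega
    have h22 : tp y z (nb y z A0) (e + 1 + 1) = tp y z (nb y z A0) (e + 2) := rfl
    have hkereq : finrank K ↥Ker ≤ finrank K ↥(V ⊔ K ∙ (z * u₀)) := by omega
    have hKerWL : Ker ≤ WL := by
      rw [← Submodule.eq_of_le_of_finrank_le
        (sup_le hVKer ((Submodule.span_singleton_le_iff_mem _ _).2 hzker)) hkereq]
      exact sup_le le_sup_left ((Submodule.span_singleton_le_iff_mem _ _).2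
        (mul_mem_of_sm_le hzA1 (ker_le_wl hu₀ htu₀)))
    have hA0WL : A0 ≤ WL := by
      refine wl_le hKerWL fun k'' hk'' hstep => ?_
      obtain ⟨w0, hw0, _, ⟨k, hk, rfl⟩, hsum⟩ := Submodule.mem_sup.1 hstep
      obtain ⟨p, hp, _, ⟨x, hx, rfl⟩, rfl⟩ := Submodule.mem_sup.1 hk
      simp only [LinearMap.mulLeft_apply] at hsum
      have hzx : z * x ∈ WL := mul_mem_of_sm_le hzA1 hx
      have : k'' - z * x ∈ Ker := by
        refine ⟨sub_mem hk'' (hWLW hzx), ?_⟩
        rw [SetLike.mem_coe, Submodule.mem_comap]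
        simp only [LinearMap.mulLeft_apply]
        have e1 : t * (k'' - z * x) = w0 + z * p := by rw [mul_sub, ← hsum]; ring
        rw [e1]
        exact add_mem hw0 (mul_mem_of_sm_le P.hz hp)
      simpa using add_mem (hKerWL this) hzx
    have h8 := tp_mono (y := y) (z := z) hA0WL (e + 1)
    have h9 := tp_eq y z WL (e + 1)
    have h10 := Submodule.finrank_mono (le_inf le_sup_left P.hV : V ≤ WL ⊓ Gp y z (e + 1))
    omega

omit [Infinite K] in
/-- The bound in degrees where `K[y, z]` is free. -/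
theorem low_bound (free : ∀ p ∈ plt K b, MvPolynomial.aeval ![y, z] p = 0 → p = 0) :
    ∀ (k : ℕ), k + 1 ≤ b → ∀ (g : ℕ) (V W : Submodule K F), V ≤ Gp y z k → nb y z V ≤ W →
      finrank K W ≤ finrank K V + g → finrank K V ≤ g.choose 2 := by
  intro k
  induction k with
  | zero =>
    intro _ g V W hV _ _
    rw [Gp_zero, le_bot_iff] at hV
    rw [hV, finrank_bot]
    exact Nat.zero_le _
  | succ k ih =>
    intro hk g V W hV hnb hg
    by_cases hlow : V ≤ Gp y z k
    · exact ih (by omega) g V W hlow hnb hg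
    have hVW : V ≤ W := (le_sup_left.trans le_sup_left).trans hnb
    have hnbU : nb y z (V ⊓ Gp y z k) ≤ W ⊓ Gp y z (k + 1) :=
      le_inf ((nb_mono inf_le_left).trans hnb) ((nb_mono inf_le_right).trans (nb_Gp_le k))
    have hgrow := free_grow free (k := k) (by omega) hV hlow
    have h0 := tp_mono (y := y) (z := z) hnb (k + 1)
    have h1 := tp_eq y z V k
    have h2 := tp_eq y z W (k + 1)
    have h3 := Submodule.finrank_mono (le_inf hVW hV : V ≤ W ⊓ Gp y z (k + 1))
    set g' := finrank K ↥(W ⊓ Gp y z (k + 1)) - finrank K ↥(V ⊓ Gp y z k) with hg'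
    have h4 := Submodule.finrank_mono ((le_sup_left.trans le_sup_left).trans hnbU :
      V ⊓ Gp y z k ≤ W ⊓ Gp y z (k + 1))
    have h5 := ih (by omega) g' (V ⊓ Gp y z k) (W ⊓ Gp y z (k + 1)) inf_le_right hnbU (by omega)
    have h6 := choose2_add (g := g) (g' := g') (x := tp y z V k) (by omega) (by omega)
    omega

end Vale.P200
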