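import Mathlib

/-!
P200: the Wong sequence of a pencil of maximal rank.
-/

namespace Vale.P200

open Module

variable {K X Y : Type*} [Field K] [AddCommGroup X] [Module K X] [AddCommGroup Y] [Module K Y]

/-- A family that moves linearly and is independent once is independent at all but finitely many parameters. -/
lemma finite_dependent {ι : Type*} [Fintype ι] [DecidableEq ι] (v w : ι → Y)
    (hv : LinearIndependent K v) : {s : K | ¬LinearIndependent K (v + s • w)}.Finite := by
  classical
  obtain ⟨P, hP⟩ := LinearMap.exists_leftInverse_of_injective (Fintype.linearCombination K v)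
    (LinearMap.ker_eq_bot.2 (linearIndependent_iff_injective_fintypeLinearCombination.1 hv))
  let M : Matrix ι ι (Polynomial K) :=
    Matrix.of fun i j => (if i = j then 1 else 0) + Polynomial.X * Polynomial.C (P (w i) j)
  have hPv : ∀ i j, P (v i) j = if i = j then 1 else 0 := by
    intro i j
    have := congrArg (fun f => f (Pi.single i 1) j) hP
    simp only [LinearMap.comp_apply, Fintype.linearCombination_apply_single, one_smul,
      LinearMap.id_apply] at this
    rw [this, Pi.single_apply]
    simp [eq_comm]
  have hM : ∀ s : K, M.det.eval s = (Matrix.of fun i j => P ((v + s • w) i) j).det := by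
    intro s
    rw [← Polynomial.coe_evalRingHom, RingHom.map_det]
    congr 1
    ext i j
    simp only [M, RingHom.mapMatrix_apply, Matrix.map_apply, Matrix.of_apply, Pi.add_apply,
      Pi.smul_apply, map_add, map_smul, hPv, smul_eq_mul, Polynomial.coe_evalRingHom]
    by_cases h : i = j <;> simp [h] <;> ring
  have hne : M.det ≠ 0 := by
    intro h0
    have h1 := hM 0
    have : (Matrix.of fun i j => P ((v + (0 : K) • w) i) j) = 1 := by
      ext i j; simp [hPv, Matrix.one_apply]
    rw [h0, this] at h1
    simp at h1
  refine (Polynomial.finite_setOfPred_isRoot hne).subset fun s hs => ?_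
  by_contra h
  have hdet : IsUnit (Matrix.of fun i j => P ((v + s • w) i) j).det := by
    rw [← hM]; exact isUnit_iff_ne_zero.2 h
  have hrows := (Matrix.linearIndependent_rows_iff_isUnit).2 ((Matrix.isUnit_iff_isUnit_det _).2 hdet)
  exact hs (LinearIndependent.of_comp P (by exact hrows))

variable [FiniteDimensional K X] [FiniteDimensional K Y]

omit [FiniteDimensional K X] in
lemma exists_indep_preimages (f : X →ₗ[K] Y) :
    ∃ e : Fin (finrank K (LinearMap.range f)) → X, LinearIndependent K (fun i => f (e i)) := by
  let B := Module.finBasis K (LinearMap.range f)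
  choose e he using fun i => (B i).2
  refine ⟨e, ?_⟩
  have := B.linearIndependent.map' (LinearMap.range f).subtype (Submodule.ker_subtype _)
  have h2 : (fun i => f (e i)) = (LinearMap.range f).subtype ∘ B := funext he
  rw [h2]
  exact this

variable (α β : X →ₗ[K] Y)

/-- The rank of the pencil at `s`. -/
noncomputable def prk (s : K) : ℕ := finrank K (LinearMap.range (α + s • β))

lemma finite_low_rank (s₀ : K) : {s : K | prk α β s < prk α β s₀}.Finite := by
  classical
  obtain ⟨e, he⟩ := exists_indep_preimages (α + s₀ • β)
  have hfin := finite_dependent (fun i => (α + s₀ • β) (e i)) (fun i => β (e i)) he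
  refine (hfin.image (fun s => s + s₀)).subset fun s hs => ⟨s - s₀, fun hind => ?_, by simp⟩
  have heq : (fun i => (α + s₀ • β) (e i)) + (s - s₀) • (fun i => β (e i))
      = fun i => (α + s • β) (e i) := by
    ext i; simp [sub_smul]
  rw [heq] at hind
  have hle : prk α β s₀ ≤ prk α β s := by
    unfold prk
    have h2 : LinearIndependent K
        (fun i => (⟨(α + s • β) (e i), LinearMap.mem_range_self _ _⟩ :
          LinearMap.range (α + s • β))) :=
      LinearIndependent.of_comp (LinearMap.range (α + s • β)).subtype hind
    simpa using h2.fintype_card_le_finrank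
  exact absurd hs (not_lt.2 hle)

omit [FiniteDimensional K X] in
lemma exists_max_rank : ∃ s₀ : K, ∀ s, prk α β s ≤ prk α β s₀ := by
  have hb : BddAbove (Set.range (prk α β)) := ⟨finrank K Y, by
    rintro _ ⟨s, rfl⟩; exact Submodule.finrank_le _⟩
  obtain ⟨s₀, hs₀⟩ := Nat.sSup_mem (Set.range_nonempty _) hb
  exact ⟨s₀, fun s => hs₀ ▸ le_csSup hb ⟨s, rfl⟩⟩

lemma finite_nonmax : {s : K | ∃ s', prk α β s < prk α β s'}.Finite := by
  obtain ⟨s₀, hs₀⟩ := exists_max_rank α β
  exact (finite_low_rank α β s₀).subset fun s ⟨s', hs'⟩ => lt_of_lt_of_le hs' (hs₀ s')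

/-- Two pencils have a common parameter of maximal rank. -/
lemma exists_common_max [Infinite K] {X' Y' : Type*} [AddCommGroup X'] [Module K X']
    [AddCommGroup Y'] [Module K Y'] [FiniteDimensional K X'] [FiniteDimensional K Y']
    (α' β' : X' →ₗ[K] Y') :
    ∃ s, (∀ s', prk α β s' ≤ prk α β s) ∧ ∀ s', prk α' β' s' ≤ prk α' β' s := by
  obtain ⟨s, hs⟩ := ((finite_nonmax α β).union (finite_nonmax α' β')).exists_notMem
  simp only [Set.mem_union, Set.mem_ofPred_eq, not_or, not_exists, not_lt] at hs
  exact ⟨s, hs.1, hs.2⟩

/-- Along a Wong chain of a pencil whose rank is maximal at `α`, `β` stays in the range of `α`. -/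
lemma wong [Infinite K] (hmax : ∀ s : K, prk α β s ≤ finrank K (LinearMap.range α))
    (u : ℕ → X) (n : ℕ) (h0 : α (u 0) = 0) (hs : ∀ i < n, α (u (i + 1)) = β (u i)) :
    β (u n) ∈ LinearMap.range α := by
  classical
  by_contra hn
  have key : ∀ s : K, ∀ m ≤ n, (α + s • β) (∑ i ∈ Finset.range (m + 1), (-s) ^ i • u i)
      = (s * (-s) ^ m) • β (u m) := by
    intro s m
    induction m with
    | zero => intro; simp [h0]
    | succ m ih =>
      intro hm
      rw [Finset.sum_range_succ, map_add, ih (by omega)]
      simp only [LinearMap.add_apply, LinearMap.smul_apply, map_smul, hs m (by omega), pow_succ]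
      module
  obtain ⟨e, he⟩ := exists_indep_preimages α
  have hnot : β (u n) ∉ Submodule.span K (Set.range fun i => α (e i)) := fun hmem =>
    hn ((Submodule.span_le.2 (by rintro _ ⟨i, rfl⟩; exact LinearMap.mem_range_self _ _)) hmem)
  have hind : LinearIndependent K
      (fun o : Option (Fin (finrank K (LinearMap.range α))) =>
        Option.casesOn' o (β (u n)) fun i => α (e i)) :=
    linearIndependent_option'.2 ⟨he, hnot⟩
  have hfin := (finite_dependent _ (fun o => Option.casesOn' o 0 fun i => β (e i)) hind).union
    (Set.finite_singleton (0 : K))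
  obtain ⟨s, hsn⟩ := hfin.exists_notMem
  simp only [Set.mem_union, Set.mem_ofPred_eq, Set.mem_singleton_iff, not_or, not_not] at hsn
  have hmem : ∀ o, ((fun o : Option (Fin (finrank K (LinearMap.range α))) =>
        Option.casesOn' o (β (u n)) fun i => α (e i)) +
      s • fun o => Option.casesOn' o 0 fun i => β (e i)) o ∈ LinearMap.range (α + s • β) := by
    rintro (_ | i)
    · simp only [Pi.add_apply, Pi.smul_apply, Option.casesOn'_none, smul_zero, add_zero]
      refine ⟨(s * (-s) ^ n)⁻¹ • ∑ i ∈ Finset.range (n + 1), (-s) ^ i • u i, ?_⟩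
      rw [map_smul, key s n le_rfl, inv_smul_smul₀]
      exact mul_ne_zero hsn.2 (pow_ne_zero _ (neg_ne_zero.2 hsn.2))
    · exact ⟨e i, by simp⟩
  have h2 : LinearIndependent K (fun o => (⟨_, hmem o⟩ : LinearMap.range (α + s • β))) :=
    LinearIndependent.of_comp (LinearMap.range (α + s • β)).subtype hsn.1
  have h3 := h2.fintype_card_le_finrank
  have := hmax s
  simp only [prk] at this
  simp at h3
  omega

end Vale.P200
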