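import Vale.Agent.P200.Base
import Vale.Agent.P200.Wong

/-!
P200: the Wong subspace of the pencil `u ↦ (y + s z) u` from `A` to `F ⧸ B`.
-/

namespace Vale.P200

open Module

variable {K F : Type*} [Field K] [CommRing F] [Algebra K F]

/-- Multiplication by `a` from `A` to `F ⧸ B`. -/
noncomputable def mq (A B : Submodule K F) (a : F) : A →ₗ[K] F ⧸ B :=
  (B.mkQ ∘ₗ LinearMap.mulLeft K a).domRestrict A

lemma mq_apply (A B : Submodule K F) (a : F) (u : A) : mq A B a u = B.mkQ (a * u) := rfl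

lemma mq_add_smul (A B : Submodule K F) (a z : F) (s : K) :
    mq A B a + s • mq A B z = mq A B (a + s • z) := by
  ext u
  simp only [LinearMap.add_apply, LinearMap.smul_apply, mq_apply, add_mul, smul_mul_assoc, map_add,
    map_smul]

/-- The least subspace of `A` containing the kernel of `t` and closed under the Wong step. -/
noncomputable def wl (t z : F) (A B : Submodule K F) : Submodule K F :=
  sInf {P | A ⊓ B.comap (LinearMap.mulLeft K t) ≤ P ∧ ∀ u ∈ A, t * u ∈ B ⊔ sm z P → u ∈ P}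

lemma wl_le {t z : F} {A B P : Submodule K F} (h1 : A ⊓ B.comap (LinearMap.mulLeft K t) ≤ P)
    (h2 : ∀ u ∈ A, t * u ∈ B ⊔ sm z P → u ∈ P) : wl t z A B ≤ P :=
  sInf_le ⟨h1, h2⟩

lemma wl_le_self (t z : F) (A B : Submodule K F) : wl t z A B ≤ A :=
  wl_le inf_le_left fun _ hu _ => hu

lemma ker_le_wl {t z : F} {A B : Submodule K F} {u : F} (hu : u ∈ A) (h : t * u ∈ B) :
    u ∈ wl t z A B :=
  Submodule.mem_sInf.2 fun _ hP => hP.1 ⟨hu, h⟩

lemma mem_wl_step {t z : F} {A B : Submodule K F} {u : F} (hu : u ∈ A)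
    (h : t * u ∈ B ⊔ sm z (wl t z A B)) : u ∈ wl t z A B :=
  Submodule.mem_sInf.2 fun P hP =>
    hP.2 u hu ((show B ⊔ sm z (wl t z A B) ≤ B ⊔ sm z P from
      sup_le_sup le_rfl (Submodule.map_mono (sInf_le hP))) h)

variable [FiniteDimensional K F] [Infinite K]

/-- If `t` has maximal rank in its pencil, `z` maps the Wong subspace into `B + t A`. -/
lemma sm_wl_le_sup (t z : F) (A B : Submodule K F)
    (hmax : ∀ s : K, prk (mq A B t) (mq A B z) s ≤ prk (mq A B t) (mq A B z) 0) :
    sm z (wl t z A B) ≤ B ⊔ sm t A := by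
  classical
  set P : ℕ → Submodule K F := fun n =>
    Nat.rec (A ⊓ B.comap (LinearMap.mulLeft K t))
      (fun _ Q => A ⊓ (B ⊔ sm z Q).comap (LinearMap.mulLeft K t)) n with hP
  have mono : Monotone P := by
    refine monotone_nat_of_le_succ fun n => ?_
    induction n with
    | zero => exact inf_le_inf_left _ (Submodule.comap_mono le_sup_left)
    | succ n ih => exact inf_le_inf_left _ (Submodule.comap_mono (sup_le_sup_left (Submodule.map_mono ih) _))
  have chain : ∀ n, ∀ p ∈ P n, ∃ u : ℕ → A, (u n : F) = p ∧ t * u 0 ∈ B ∧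
      ∀ i < n, t * u (i + 1) - z * u i ∈ B := by
    intro n
    induction n with
    | zero => intro p hp; exact ⟨fun _ => ⟨p, hp.1⟩, rfl, hp.2, fun i hi => absurd hi (by omega)⟩
    | succ n ih =>
      intro p hp
      obtain ⟨b, hb, _, ⟨q, hq, rfl⟩, hbq⟩ := Submodule.mem_sup.1 hp.2
      obtain ⟨u, hun, h0, hu⟩ := ih q hq
      refine ⟨Function.update u (n + 1) ⟨p, hp.1⟩, by simp, by simpa using h0, fun i hi => ?_⟩
      rcases Nat.lt_succ_iff_lt_or_eq.1 hi with h | rfl
      · rw [Function.update_of_ne (by omega), Function.update_of_ne (by omega)]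
        exact hu i h
      · rw [Function.update_self, Function.update_of_ne (by omega), hun]
        simp only [LinearMap.mulLeft_apply] at hbq
        rw [← hbq]
        simpa using hb
  have hstep : ∀ n, sm z (P n) ≤ B ⊔ sm t A := by
    intro n
    rintro _ ⟨p, hp, rfl⟩
    obtain ⟨u, hun, h0, hu⟩ := chain n p hp
    have hmax' : ∀ s : K, prk (mq A B t) (mq A B z) s ≤ finrank K (LinearMap.range (mq A B t)) := by
      intro s
      have e : prk (mq A B t) (mq A B z) 0 = finrank K (LinearMap.range (mq A B t)) := by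
        have e0 : mq A B t + (0 : K) • mq A B z = mq A B t := by ext; simp
        unfold prk
        rw [e0]
      exact e ▸ hmax s
    obtain ⟨w, hw⟩ := wong (mq A B t) (mq A B z) hmax' u n
      ((Submodule.Quotient.mk_eq_zero B).2 h0)
      (fun i hi => (Submodule.Quotient.eq B).2 (hu i hi))
    rw [mq_apply, mq_apply] at hw
    have hmem := (Submodule.Quotient.eq B).1 hw
    refine Submodule.mem_sup.2 ⟨-(t * w - z * u n), neg_mem hmem, t * w, ⟨w, w.2, rfl⟩, ?_⟩
    simp [hun]
  have hle : wl t z A B ≤ ⨆ n, P n := by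
    refine wl_le (le_iSup P 0) fun u hu h => ?_
    obtain ⟨b, hb, _, ⟨q, hq, rfl⟩, hbq⟩ := Submodule.mem_sup.1 h
    obtain ⟨n, hn⟩ := (Submodule.mem_iSup_of_directed P (mono.directed_le)).1 hq
    exact Submodule.mem_iSup_of_mem (n + 1)
      ⟨hu, Submodule.mem_sup.2 ⟨b, hb, _, ⟨q, hn, rfl⟩, hbq⟩⟩
  refine (Submodule.map_mono hle).trans ?_
  rw [Submodule.map_iSup]
  exact iSup_le hstep

/-- The two properties of the Wong subspace that the descent and the ascent use. -/
lemma sm_wl_le (t z : F) (A B : Submodule K F)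
    (hmax : ∀ s : K, prk (mq A B t) (mq A B z) s ≤ prk (mq A B t) (mq A B z) 0) :
    sm z (wl t z A B) ≤ B ⊔ sm t (wl t z A B) := by
  rintro _ ⟨p, hp, rfl⟩
  obtain ⟨b, hb, _, ⟨w, hw, rfl⟩, hbw⟩ :=
    Submodule.mem_sup.1 (sm_wl_le_sup t z A B hmax ⟨p, hp, rfl⟩)
  simp only [LinearMap.mulLeft_apply] at hbw ⊢
  refine Submodule.mem_sup.2 ⟨b, hb, t * w, ⟨w, mem_wl_step hw ?_, rfl⟩, hbw⟩
  refine Submodule.mem_sup.2 ⟨-b, neg_mem hb, z * p, ⟨p, hp, rfl⟩, ?_⟩
  rw [← hbw]; abel

omit [Infinite K] in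
/-- The rank identity for a subspace containing the kernel. -/
lemma finrank_sup_sm_of_ker_le (t : F) {A A' B : Submodule K F} (hA : A' ≤ A)
    (hk : A ⊓ B.comap (LinearMap.mulLeft K t) ≤ A') :
    finrank K ↥(B ⊔ sm t A') + finrank K A = finrank K ↥(B ⊔ sm t A) + finrank K A' := by
  have h1 := finrank_rk t A B
  have h2 := finrank_rk t A' B
  have : A' ⊓ B.comap (LinearMap.mulLeft K t) = A ⊓ B.comap (LinearMap.mulLeft K t) :=
    le_antisymm (inf_le_inf_right _ hA) (le_inf hk inf_le_right)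
  rw [this] at h2
  omega

lemma exists_generic (y z : F) (A B A' B' : Submodule K F) :
    ∃ s : K, (∀ r : K, prk (mq A B (y + s • z)) (mq A B z) r ≤
        prk (mq A B (y + s • z)) (mq A B z) 0) ∧
      ∀ r : K, prk (mq A' B' (y + s • z)) (mq A' B' z) r ≤
        prk (mq A' B' (y + s • z)) (mq A' B' z) 0 := by
  obtain ⟨s, h1, h2⟩ :=
    exists_common_max (mq A B y) (mq A B z) (mq A' B' y) (mq A' B' z)
  have e : ∀ (P Q : Submodule K F) (r : K), prk (mq P Q (y + s • z)) (mq P Q z) r
      = prk (mq P Q y) (mq P Q z) (s + r) := by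
    intro P Q r
    have e1 : mq P Q (y + s • z) + r • mq P Q z = mq P Q y + (s + r) • mq P Q z := by
      ext u
      simp only [LinearMap.add_apply, LinearMap.smul_apply, mq_apply, add_mul, smul_mul_assoc,
        map_add, map_smul, add_smul, add_assoc]
    unfold prk
    rw [e1]
  exact ⟨s, fun r => by rw [e, e, add_zero]; exact h1 _, fun r => by rw [e, e, add_zero]; exact h2 _⟩

end Vale.P200
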