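import Vale.Agent.P200.Base

/-!
P200: a plateau in the layer chain is impossible (determinant trick).
-/

namespace Vale.P200

open Module

variable {K F : Type*} [Field K] [CommRing F] [Algebra K F]

/-- Combinations `∑ pₗ(t) uₗ` with `deg pₗ ≤ kₗ - k`. -/
noncomputable def comb {ι : Type*} [Fintype ι] (t : F) (u : ι → F) :
    (ι → Polynomial K) →ₗ[K] F where
  toFun p := ∑ l, Polynomial.aeval t (p l) * u l
  map_add' p q := by simp [add_mul, Finset.sum_add_distrib]
  map_smul' r p := by simp [Finset.smul_sum]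

/-- The span of the admissible translates of the generators in level `k`. -/
noncomputable def Sp {ι : Type*} [Fintype ι] (t : F) (u : ι → F) (kk : ι → ℕ) (k : ℕ) :
    Submodule K F :=
  (Submodule.pi Set.univ fun l => Polynomial.degreeLT K (kk l + 1 - k)).map (comb t u)

lemma mem_Sp {ι : Type*} [Fintype ι] {t : F} {u : ι → F} {kk : ι → ℕ} {k : ℕ} {x : F} :
    x ∈ Sp (K := K) t u kk k ↔ ∃ p : ι → Polynomial K,
      (∀ l, p l ∈ Polynomial.degreeLT K (kk l + 1 - k)) ∧ ∑ l, Polynomial.aeval t (p l) * u l = x := by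
  simp [Sp, comb, Submodule.mem_map, Submodule.mem_pi]

lemma Sp_mono {ι : Type*} [Fintype ι] (t : F) (u : ι → F) (kk : ι → ℕ) {k k' : ℕ} (h : k ≤ k') :
    Sp (K := K) t u kk k' ≤ Sp t u kk k := by
  intro x hx
  obtain ⟨p, hp, rfl⟩ := mem_Sp.1 hx
  exact mem_Sp.2 ⟨p, fun l => Polynomial.degreeLT_mono (by omega) (hp l), rfl⟩

lemma mul_Sp_succ {ι : Type*} [Fintype ι] (t : F) (u : ι → F) (kk : ι → ℕ) (k : ℕ) {x : F}
    (hx : x ∈ Sp (K := K) t u kk (k + 1)) : t * x ∈ Sp (K := K) t u kk k := by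
  obtain ⟨p, hp, rfl⟩ := mem_Sp.1 hx
  refine mem_Sp.2 ⟨fun l => Polynomial.X * p l, fun l => ?_, ?_⟩
  · have h := hp l
    rcases eq_or_ne (p l) 0 with h0 | h0
    · simp [h0]
    · rw [Polynomial.mem_degreeLT, Polynomial.degree_eq_natDegree h0, Nat.cast_lt] at h
      rw [Polynomial.mem_degreeLT, Polynomial.degree_eq_natDegree (mul_ne_zero Polynomial.X_ne_zero h0),
        Nat.cast_lt, Polynomial.natDegree_X_mul h0]
      omega
  · rw [Finset.mul_sum]
    exact Finset.sum_congr rfl fun l _ => by simp [mul_assoc]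

lemma gen_mem_Sp {ι : Type*} [Fintype ι] [DecidableEq ι] (t : F) (u : ι → F) (kk : ι → ℕ)
    {k : ℕ} (j : ι) (h : k ≤ kk j) : u j ∈ Sp (K := K) t u kk k := by
  refine mem_Sp.2 ⟨Pi.single j 1, fun l => ?_, ?_⟩
  · by_cases hl : l = j
    · subst hl
      rw [Pi.single_eq_same, Polynomial.mem_degreeLT, Polynomial.degree_one]
      exact_mod_cast (by omega : 0 < kk l + 1 - k)
    · simp [Pi.single_eq_of_ne hl]
  · rw [Finset.sum_eq_single j]
    · simp
    · intro l _ hl; simp [Pi.single_eq_of_ne hl]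
    · simp

variable [FiniteDimensional K F]

lemma exists_gen {N M : Submodule K F} (h : N ≤ M) :
    ∃ v : Fin (finrank K M - finrank K N) → F,
      (∀ j, v j ∈ M) ∧ M ≤ N ⊔ Submodule.span K (Set.range v) := by
  obtain ⟨P, hP⟩ := Submodule.exists_isCompl N
  have hsup : N ⊔ P ⊓ M = M := by
    rw [← sup_inf_assoc_of_le P h, hP.sup_eq_top, top_inf_eq]
  have hdim : finrank K ↥(P ⊓ M) = finrank K M - finrank K N := by
    have h1 := Submodule.finrank_sup_add_finrank_inf_eq N (P ⊓ M)
    rw [hsup] at h1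
    have : N ⊓ (P ⊓ M) = ⊥ := by rw [← inf_assoc, hP.inf_eq_bot, bot_inf_eq]
    rw [this, finrank_bot] at h1
    omega
  let B := Module.finBasisOfFinrankEq K ↥(P ⊓ M) hdim
  refine ⟨fun j => (B j : F), fun j => (B j).2.2, ?_⟩
  conv_lhs => rw [← hsup]
  refine sup_le_sup le_rfl ?_
  intro x hx
  have h2 := B.mem_span (⟨x, hx⟩ : ↥(P ⊓ M))
  have h3 := Submodule.mem_map_of_mem (f := (P ⊓ M).subtype) h2
  rw [Submodule.map_span, ← Set.range_comp] at h3
  exact h3

/-- Generators of the chain `C` above level `k` when `t` is injective on its layers. -/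
lemma exists_generators (C : ℕ → Submodule K F) (t : F) (k n : ℕ)
    (hC : ∀ i, C (i + 1) ≤ C i) (ht : ∀ i, sm t (C (i + 1)) ≤ C i)
    (hinj : ∀ i, C (i + 1) ⊓ (C (i + 1)).comap (LinearMap.mulLeft K t) = C (i + 2))
    (hbot : ∀ i, n ≤ i → C i = ⊥) :
    ∃ (ι : Type) (_ : Fintype ι) (u : ι → F) (kk : ι → ℕ),
      Fintype.card ι + finrank K (C (k + 1)) = finrank K (C k) ∧
      (∀ j, k ≤ kk j ∧ u j ∈ C (kk j)) ∧ ∀ k', k ≤ k' → C k' ≤ Sp t u kk k' := by
  classical
  induction hd : n - k generalizing k with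
  | zero =>
    refine ⟨PEmpty, inferInstance, fun j => j.elim, fun j => j.elim, ?_, fun j => j.elim, fun k' hk' => ?_⟩
    · rw [hbot k (by omega), hbot (k + 1) (by omega)]; simp
    · rw [hbot k' (by omega)]; exact bot_le
  | succ d ih =>
    obtain ⟨ι, hι, u, kk, hcard, hmem, hspan⟩ := ih (k + 1) (by omega)
    have hN : C (k + 1) ⊔ sm t (C (k + 1)) ≤ C k := sup_le (hC k) (ht k)
    have hrk := finrank_rk t (C (k + 1)) (C (k + 1))
    rw [hinj k] at hrk
    obtain ⟨v, hv, hsup⟩ := exists_gen hN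
    have hle := Submodule.finrank_mono hN
    refine ⟨ι ⊕ Fin (finrank K ↥(C k) - finrank K ↥(C (k + 1) ⊔ sm t (C (k + 1)))), inferInstance,
      Sum.elim u v, Sum.elim kk fun _ => k, ?_, ?_, ?_⟩
    · simp only [Fintype.card_sum, Fintype.card_fin]
      have h22 : finrank K ↥(C (k + 1 + 1)) = finrank K ↥(C (k + 2)) := rfl
      omega
    · rintro (j | j)
      · exact ⟨by have := (hmem j).1; simp only [Sum.elim_inl]; omega, (hmem j).2⟩
      · exact ⟨le_rfl, hv j⟩
    · have hup : ∀ k', Sp (K := K) t u kk k' ≤ Sp t (Sum.elim u v) (Sum.elim kk fun _ => k) k' := by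
        intro k' x hx
        obtain ⟨p, hp, rfl⟩ := mem_Sp.1 hx
        refine mem_Sp.2 ⟨Sum.elim p 0, ?_, ?_⟩
        · rintro (j | j)
          · exact hp j
          · exact Submodule.zero_mem _
        · simp [Fintype.sum_sum_type]
      intro k' hk'
      rcases hk'.lt_or_eq with h | h
      · exact (hspan k' h).trans (hup k')
      · subst h
        refine hsup.trans (sup_le (sup_le ?_ ?_) ?_)
        · exact (hspan _ le_rfl).trans ((hup _).trans (Sp_mono t _ _ (by omega)))
        · rintro _ ⟨x, hx, rfl⟩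
          exact mul_Sp_succ t _ _ k (hup _ (hspan _ le_rfl hx))
        · rw [Submodule.span_le]
          rintro _ ⟨j, rfl⟩
          exact gen_mem_Sp t (Sum.elim u v) (Sum.elim kk fun _ => k) (Sum.inr j) le_rfl

omit [FiniteDimensional K F] in
lemma prod_mem_plt {ι : Type*} (S : Finset ι) (f : ι → MvPolynomial (Fin 2) K) (w : ι → ℕ)
    (h : ∀ i ∈ S, f i ∈ plt K (w i + 1)) : ∏ i ∈ S, f i ∈ plt K (∑ i ∈ S, w i + 1) := by
  classical
  induction S using Finset.induction with
  | empty => simpa using one_mem_plt (K := K)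
  | @insert a S ha ih =>
    rw [Finset.prod_insert ha, Finset.sum_insert ha]
    exact plt_mono (by omega) (plt_mul (h a (Finset.mem_insert_self a S))
      (ih fun i hi => h i (Finset.mem_insert_of_mem hi)))

omit [FiniteDimensional K F] in
lemma aeval_mem_plt {n : ℕ} {p : Polynomial K} (hp : p ∈ Polynomial.degreeLT K n)
    {T : MvPolynomial (Fin 2) K} (hT : T ∈ plt K 2) : Polynomial.aeval T p ∈ plt K n := by
  classical
  rw [Polynomial.degreeLT_eq_span_X_pow] at hp
  induction hp using Submodule.span_induction with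
  | mem x hx =>
    simp only [Finset.coe_image, Finset.coe_range, Set.mem_image, Set.mem_Iio] at hx
    obtain ⟨m, hm, rfl⟩ := hx
    have h := prod_mem_plt (Finset.range m) (fun _ => T) (fun _ => 1) (fun _ _ => hT)
    simp at h
    simpa using plt_mono (by omega) h
  | zero => simp
  | add x y _ _ hx hy => rw [map_add]; exact add_mem hx hy
  | smul r x _ hx => rw [map_smul]; exact Submodule.smul_mem _ _ hx

omit [FiniteDimensional K F] in
/-- The determinant trick: bounded translates of `uₗ` form a `z`-stable family. -/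
theorem det_trick {y z : F} {ι : Type} [Fintype ι] [DecidableEq ι]
    (s : K) (u : ι → F) (kk : ι → ℕ) (p : ι → ι → Polynomial K)
    (hp : ∀ j l, p j l ∈ Polynomial.degreeLT K (kk l + 2 - kk j))
    (hz : ∀ j, ∑ l, Polynomial.aeval (y + s • z) (p j l) * u l = z * u j) :
    ∃ M : Matrix ι ι (MvPolynomial (Fin 2) K),
      (∀ j l, M j l ∈ plt K (kk l + 2 - kk j)) ∧ M.det ≠ 0 ∧
      M.det ∈ plt K (Fintype.card ι + 1) ∧
      (∀ j, ∑ l, MvPolynomial.aeval ![y, z] (M j l) * u l = 0) ∧
      ∀ l, MvPolynomial.aeval ![y, z] M.det * u l = 0 := by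
  classical
  set Tv : MvPolynomial (Fin 2) K := MvPolynomial.X 0 + s • MvPolynomial.X 1 with hTv
  have hTv2 : Tv ∈ plt K 2 := add_mem (X_mem_plt 0) (Submodule.smul_mem _ _ (X_mem_plt 1))
  let M : Matrix ι ι (MvPolynomial (Fin 2) K) :=
    Matrix.of fun j l => (if j = l then MvPolynomial.X 1 else 0) - Polynomial.aeval Tv (p j l)
  have hM : ∀ j l, M j l ∈ plt K (kk l + 2 - kk j) := by
    intro j l
    refine sub_mem ?_ (aeval_mem_plt (hp j l) hTv2)
    split_ifs with h
    · subst h
      rw [show kk j + 2 - kk j = 2 by omega]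
      exact X_mem_plt 1
    · exact Submodule.zero_mem _
  have hev : ∀ j l, MvPolynomial.aeval ![y, z] (M j l)
      = (if j = l then z else 0) - Polynomial.aeval (y + s • z) (p j l) := by
    intro j l
    simp only [M, Matrix.of_apply, map_sub, ← Polynomial.aeval_algHom_apply]
    congr 1
    · split_ifs <;> simp
    · congr 1
      simp [hTv]
  have hrow : ∀ j, ∑ l, MvPolynomial.aeval ![y, z] (M j l) * u l = 0 := by
    intro j
    simp only [hev, sub_mul, Finset.sum_sub_distrib, hz j]
    simp [ite_mul]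
  refine ⟨M, hM, ?_, ?_, hrow, ?_⟩
  · intro h0
    let ψ : MvPolynomial (Fin 2) K →ₐ[K] Polynomial K :=
      MvPolynomial.aeval ![-(s • Polynomial.X), Polynomial.X]
    have hψT : ψ Tv = 0 := by simp [ψ, hTv]
    have hch : M.map ψ = (Matrix.of fun j l => (p j l).coeff 0).charmatrix := by
      ext1 j l
      simp only [Matrix.map_apply, M, Matrix.of_apply, map_sub, ← Polynomial.aeval_algHom_apply,
        hψT, ← Polynomial.coeff_zero_eq_aeval_zero', Matrix.charmatrix_apply, Matrix.diagonal_apply]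
      congr 1
      split_ifs <;> simp [ψ]
    have := (AlgHom.map_det ψ M).symm
    rw [AlgHom.mapMatrix_apply, h0, map_zero, hch] at this
    exact (Matrix.charpoly_monic _).ne_zero this
  · rw [Matrix.det_apply']
    refine Submodule.sum_mem _ fun σ _ => ?_
    have hmem : ∏ i, M (σ i) i ∈ plt K (Fintype.card ι + 1) := by
      by_cases h0 : ∃ i, M (σ i) i = 0
      · obtain ⟨i, hi⟩ := h0
        rw [Finset.prod_eq_zero (f := fun i => M (σ i) i) (Finset.mem_univ i) hi]
        exact Submodule.zero_mem _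
      push Not at h0
      have hlt : ∀ i, kk (σ i) ≤ kk i + 1 := by
        intro i
        by_contra hc
        have := hM (σ i) i
        rw [show kk i + 2 - kk (σ i) = 0 by omega, plt_zero] at this
        exact h0 i ((Submodule.mem_bot K).1 this)
      have h := prod_mem_plt Finset.univ (fun i => M (σ i) i) (fun i => kk i + 1 - kk (σ i))
        (fun i _ => plt_mono (by have := hlt i; omega) (hM (σ i) i))
      have hsum : ∑ i, (kk i + 1 - kk (σ i)) = Fintype.card ι := by
        have h1 : ∑ i, (kk i + 1 - kk (σ i)) + ∑ i, kk (σ i) = ∑ i, (kk i + 1) := by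
          rw [← Finset.sum_add_distrib]
          exact Finset.sum_congr rfl fun i _ => by have := hlt i; omega
        rw [Equiv.sum_comp σ kk, Finset.sum_add_distrib] at h1
        simp at h1
        omega
      rw [hsum] at h
      exact h
    rcases Int.units_eq_one_or (Equiv.Perm.sign σ) with h | h <;> simp [h, hmem]
  · intro l
    have hv : (M.map (MvPolynomial.aeval ![y, z])).mulVec u = 0 := by
      ext j; simpa [Matrix.mulVec, dotProduct] using hrow j
    have h2 := congrArg ((M.map (MvPolynomial.aeval ![y, z])).adjugate.mulVec) hv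
    rw [Matrix.mulVec_mulVec, Matrix.adjugate_mul, Matrix.mulVec_zero, Matrix.smul_mulVec,
      Matrix.one_mulVec] at h2
    have h3 := congrFun h2 l
    rw [AlgHom.map_det]
    simpa using h3

/-- In a chain whose layers `t` embeds, two consecutive layers of equal size below `b` vanish. -/
theorem plateau {y z : F} {b : ℕ} (free : ∀ p ∈ plt K b, MvPolynomial.aeval ![y, z] p = 0 → p = 0)
    (s : K) (C : ℕ → Submodule K F) {φ : F} (hφ : IsUnit φ) {a e T : ℕ} (hT : T + a = e + 2)
    (hab : a ≤ b) (hC : ∀ i, C (i + 1) ≤ C i) (ht : ∀ i, sm (y + s • z) (C (i + 1)) ≤ C i)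
    (hz : ∀ i, sm z (C (i + 1)) ≤ C i)
    (hinj : ∀ i, C (i + 1) ⊓ (C (i + 1)).comap (LinearMap.mulLeft K (y + s • z)) = C (i + 2))
    (hG : ∀ i, C i ≤ Gp y z (e + 2 - i)) (hphi : ∀ i, sm φ (Gp y z (T - i)) ≤ C i)
    (i : ℕ) (heq : finrank K (C (i + 1)) + finrank K (C (i + 1)) = finrank K (C i) + finrank K (C (i + 2)))
    (hsmall : finrank K (C i) < finrank K (C (i + 1)) + b) :
    finrank K (C i) = finrank K (C (i + 1)) := by
  classical
  obtain ⟨ι, hι, u, kk, hcard, hmem, hspan⟩ := exists_generators C (y + s • z) (i + 1) (e + 2) hC ht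
    hinj (fun j hj => by
      rw [eq_bot_iff, ← Gp_zero (y := y) (z := z)]
      exact (hG j).trans (Gp_mono (by omega)))
  have hCi : C i ≤ Sp (y + s • z) u kk i := by
    have hrk := finrank_rk (y + s • z) (C (i + 1)) (C (i + 1))
    rw [hinj i] at hrk
    have he : C (i + 1) ⊔ sm (y + s • z) (C (i + 1)) = C i :=
      Submodule.eq_of_le_of_finrank_le (sup_le (hC i) (ht i)) (by omega)
    rw [← he]
    refine sup_le ((hspan _ le_rfl).trans (Sp_mono _ _ _ (by omega))) ?_
    rintro _ ⟨x, hx, rfl⟩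
    exact mul_Sp_succ _ _ _ i (hspan _ le_rfl hx)
  have hzu : ∀ j, ∃ p : ι → Polynomial K, (∀ l, p l ∈ Polynomial.degreeLT K (kk l + 2 - kk j)) ∧
      ∑ l, Polynomial.aeval (y + s • z) (p l) * u l = z * u j := by
    intro j
    have hj := (hmem j).1
    have hsucc : kk j - 1 + 1 = kk j := by omega
    have h1 : z * u j ∈ C (kk j - 1) :=
      hz (kk j - 1) ⟨u j, by rw [hsucc]; exact (hmem j).2, rfl⟩
    have h2 : C (kk j - 1) ≤ Sp (y + s • z) u kk (kk j - 1) := by
      rcases (show i ≤ kk j - 1 by omega).lt_or_eq with h | h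
      · exact hspan _ h
      · rw [← h]; exact hCi
    obtain ⟨p, hp, hpe⟩ := mem_Sp.1 (h2 h1)
    exact ⟨p, fun l => Polynomial.degreeLT_mono (by omega) (hp l), hpe⟩
  choose p hp hpe using hzu
  obtain ⟨M, hM, hne, hdeg, hrow, hkill⟩ := det_trick s u kk p hp hpe
  have hkillC : ∀ x ∈ C i, MvPolynomial.aeval ![y, z] M.det * x = 0 := by
    intro x hx
    obtain ⟨q, -, rfl⟩ := mem_Sp.1 (hCi hx)
    rw [Finset.mul_sum]
    exact Finset.sum_eq_zero fun l _ => by rw [mul_left_comm, hkill l, mul_zero]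
  rcases Nat.lt_or_ge i T with hiT | hiT
  · exfalso
    have hφC : φ ∈ C i := hphi i ⟨1, one_mem_Gp (by omega), by simp⟩
    have h0 : MvPolynomial.aeval ![y, z] M.det = 0 := (hφ.mul_left_eq_zero).1 (hkillC φ hφC)
    have h22 : finrank K ↥(C (i + 1 + 1)) = finrank K ↥(C (i + 2)) := rfl
    exact hne (free _ (plt_mono (by omega) hdeg) h0)
  · have hrep : ∀ l, ∃ P ∈ plt K (e + 2 - kk l), MvPolynomial.aeval ![y, z] P = u l :=
      fun l => mem_Gp.1 (hG _ (hmem l).2)
    choose P hP hPe using hrep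
    have hid : M.mulVec P = 0 := by
      ext j : 1
      refine free _ ?_ ?_
      · refine Submodule.sum_mem _ fun l _ => ?_
        rcases eq_or_ne (M j l) 0 with h0 | h0
        · simp [h0]
        rcases eq_or_ne (P l) 0 with h1 | h1
        · simp [h1]
        refine plt_mono ?_ (plt_mul (hM j l) (hP l))
        have := (hmem j).1
        have : 0 < kk l + 2 - kk j := Nat.pos_of_ne_zero fun h => h0 (by
          have := hM j l
          rwa [h, plt_zero, Submodule.mem_bot] at this)
        have : 0 < e + 2 - kk l := Nat.pos_of_ne_zero fun h => h1 (by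
          have := hP l
          rwa [h, plt_zero, Submodule.mem_bot] at this)
        omega
      · simp only [Matrix.mulVec, dotProduct, map_sum, map_mul, hPe, hrow j]
    have hP0 : P = 0 := Matrix.eq_zero_of_mulVec_eq_zero hne hid
    have hbot : C i ≤ ⊥ := by
      intro x hx
      obtain ⟨q, -, rfl⟩ := mem_Sp.1 (hCi hx)
      have : ∀ l, u l = 0 := fun l => by rw [← hPe l, hP0]; simp
      simp [this]
    have e0 : C i = ⊥ := eq_bot_iff.2 hbot
    have e1 : C (i + 1) = ⊥ := eq_bot_iff.2 ((hC i).trans hbot)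
    rw [e0, e1]

end Vale.P200
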