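import Vale.Agent.P200.Bridge
import Vale.Agent.P200.Growth

/-!
P200: the Clements-Lindström step in every degree for pairs in a frame.
-/

namespace Vale.P200

open Module

/-- The growth theorem, fed into the combinatorics, in every degree. -/
theorem step_holds.{u, v} (K : Type u) [Field K] [Infinite K] {a b c : ℕ} (ha : 2 ≤ a) (hab : a ≤ b)
    (hbc : b ≤ c) : StepHolds.{u, v} K a b c := by
  intro F _ _ _ y z φ lam H hdim hφ hφG hflat
  have hN : finrank K F = b * c := by
    rw [← finrank_top K F, ← H.top, hdim, sq_top (by omega)]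
  have hle : ∀ {k : ℕ} {M : Submodule K F}, M ≤ Gp y z k → finrank K M ≤ sq b c k :=
    fun h => (Submodule.finrank_mono h).trans (hdim _).le
  have hge : ∀ {k : ℕ} {M : Submodule K F}, sm φ (Gp y z k) ≤ M → sq b c k ≤ finrank K M := by
    intro k M h
    rw [← hdim, ← finrank_sm hφ]
    exact Submodule.finrank_mono h
  have direct : ∀ (e : ℕ) (V W : Submodule K F),
      (e + 2 ≤ a ∨ (a + b ≤ e + 2 ∧ e + 2 ≤ c) ∨
        (a ≤ e + 1 ∧ e + 2 ≤ a + b ∧ e + 3 ≤ b + c)) →
      Pair y z φ e (e + 2 - a) V W →
      LexStep a b c e (finrank K V - sq b c (e + 1 - a)) (finrank K W - sq b c (e + 2 - a)) := by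
    intro e V W hcase P
    have hVW := Submodule.finrank_mono P.le
    rcases hcase with h | ⟨h1, h2⟩ | ⟨h1, h2, h3⟩
    · have hnb : nb y z V ≤ W := sup_le (sup_le P.le P.hy) P.hz
      have hb := low_bound H.free (e + 1) (by omega) (finrank K W - finrank K V) V W P.hV hnb
        (by omega)
      rw [show e + 1 - a = 0 by omega, show e + 2 - a = 0 by omega, show sq b c 0 = 0 by simp [sq]]
      exact lexStep_low (g := finrank K W - finrank K V) h hab hbc (by omega) (by simpa using hb)
    · refine lexStep_flat (by omega) h1 h2 ?_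
      have hf := hflat (e + 2 - a) (by omega)
      rw [show e + 2 - a + a - 1 = e + 1 by omega] at hf
      have hinf := Submodule.finrank_mono ((inf_le_inf_right _ P.hV).trans hf :
        V ⊓ sm φ (Gp y z (e + 2 - a)) ≤ _)
      have hsum := Submodule.finrank_sup_add_finrank_inf_eq V (sm φ (Gp y z (e + 2 - a)))
      have hsup := Submodule.finrank_mono (sup_le P.le P.pW)
      rw [finrank_sm hφ, hdim, show e + 2 - a - 1 = e + 1 - a by omega] at hinf
      rw [finrank_sm hφ, hdim] at hsum
      omega
    · have hb0 : sq b c (e + 1 - a) = (e + 2 - a).choose 2 := by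
        rw [sq_choose hbc (by omega), show e + 1 - a + 1 = e + 2 - a by omega]
      have hb1 : sq b c (e + 2 - a) = (e + 2 - a + 1).choose 2 := sq_choose hbc (by omega)
      have hV0 : sq b c (e + 1 - a) ≤ finrank K V := hge (by
        rw [show e + 1 - a = e + 2 - a - 1 by omega]; exact P.pV)
      have hW0 := hge P.pW
      have hV1 := hle P.hV
      have hW1 := hle P.hW
      have hc0 := card_mons (a := a) (b := b) (c := c) (by omega) e
      have hc1 := card_mons (a := a) (b := b) (c := c) (by omega) (e + 1)
      rw [show e + 1 + 1 - a = e + 2 - a by omega, show e + 1 + 1 = e + 2 from rfl] at hc1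
      refine lexStep_mid (T := e + 2 - a) (g := finrank K W - finrank K V) ha hab hbc (by omega)
        (by omega) (by omega) h3 (by omega) (by omega) (by omega) ?_
      rcases Nat.lt_or_ge (finrank K W - finrank K V) b with hg | hg
      · have hgr := growth H hφ (a := a) (by omega) hab (by omega)
          (fun k hk => by rw [hdim, sq_choose hbc hk]) (e := e) (T := e + 2 - a) (by omega)
          (by omega) (by omega) (by omega) (finrank K W - finrank K V) hg V W P (by omega)
        rw [hN] at hgr
        omega
      · exact Or.inl hg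
  intro e V W P
  by_cases hd : e + 2 ≤ a ∨ (a + b ≤ e + 2 ∧ e + 2 ≤ c) ∨
      (a ≤ e + 1 ∧ e + 2 ≤ a + b ∧ e + 3 ≤ b + c)
  · exact direct e V W hd P
  rcases Nat.lt_or_ge (a + b + c) (e + 4) with hhigh | hlow
  · intro m _ _ m' hm' _ _ _
    simp only [mons, Finset.mem_filter, Finset.mem_product, Finset.mem_range] at hm'
    omega
  obtain ⟨e', he'⟩ : ∃ e', e + e' + 4 = a + b + c := ⟨a + b + c - 4 - e, by omega⟩
  have hd' := direct e' _ _ (by omega) (P.dual H (e' := e') (by omega))
  rw [finrank_sm hφ, finrank_sm hφ] at hd'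
  have hoW := H.finrank_orth W
  have hoV := H.finrank_orth V
  have hc0 := card_mons (a := a) (b := b) (c := c) (by omega) e
  have hc1 := card_mons (a := a) (b := b) (c := c) (by omega) (e + 1)
  rw [show e + 1 + 1 = e + 2 from rfl] at hc1
  have hV1 := hle P.hV
  have hW1 := hle P.hW
  have hV0 : sq b c (e + 1 - a) ≤ finrank K V := hge (by
    rw [show e + 1 - a = e + 2 - a - 1 by omega]; exact P.pV)
  have hW0 := hge P.pW
  have hk0 := H.finrank_compl (e + 1)
  have hk1 := H.finrank_compl (e + 2)
  rw [hdim, hdim, show b + c - 2 + 1 - (e + 1) = e' + 2 - a by omega] at hk0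
  rw [hdim, hdim, show b + c - 2 + 1 - (e + 2) = e' + 1 - a by omega] at hk1
  refine lexStep_dual he' (by omega) (by omega) ?_
  convert hd' using 1 <;> omega

end Vale.P200
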